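import Crest.Agent.X212.Map77.S1
import Crest.Agent.X212.Win45.Gap

/-!
# Row 212, SW-DENS-Z (helper34): the leaves
-/

set_option autoImplicit false
set_option linter.unusedSectionVars false
noncomputable section
open scoped Manifold ContDiff Topology InnerProductSpace
open MeasureTheory Set Function Filter

namespace Crest.Agent.X212.Dz34
open An Sob92 Cyf70 Sw Sw.En3 Map77.S
open Map77 (P2 i1 i2 f2 s2 addB Nc)
open M (Mf)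

variable {κ lam ν : Type} [Fintype κ] [Fintype lam] [Fintype ν] [DecidableEq ν]
  {e : En3 κ lam ν}

/-- the Dirac equation -/
def ED (c : e.ZC) (x : e.Y.M × ℝ) : Eu ν :=
  e.cyl.eD c x - e.b (nm (sl c x.2)) • e.m.ρ none x.1 (c.Φ x)

/-- the curvature equation without the transversality terms -/
def EC (c : e.ZC) (x : e.Y.M × ℝ) : F2 κ := e.cyl.eC c x + deriv e.f (hol (sl c x.2)) • e.ζ x.1

/-- `w` is the linearisation of `(ED, EC)` at `c` in the direction `u` (the gauge row is free) -/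
def Lin (c : e.ZC) (u : e.Y.M × ℝ → Cf κ ν) (w : e.Y.M × ℝ → Ef κ ν) : Prop := ∀ x,
  HasDerivAt (fun r : ℝ => ED (vr c u r) x) (f2 _ _ (f2 _ _ (w x))) 0 ∧
    HasDerivAt (fun r : ℝ => EC (vr c u r) x) (s2 _ _ (f2 _ _ (w x))) 0

/-- the local part of the linearisation -/
def op0 (c : e.ZC) : Op (e.Y.M × ℝ) (Option κ) (Cf κ ν) (Ef κ ν) := addB (full e.cyl c) fun x =>
  -e.b (nm (sl c x.2)) • (i1 _ _ ∘L i1 _ _ ∘L e.m.ρ none x.1 ∘L sp)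

/-- the slice terms are `⟪g i, u⟫_Y h i` -/
def g0 (c : e.ZC) : Bool → e.Y.M × ℝ → Cf κ ν
  | true => fun x => (2 * deriv e.b (nm (sl c x.2))) • i2 _ _ (c.Φ x)
  | false => fun x => (4 * deriv (deriv e.f) (hol (sl c x.2))) •
      i1 _ _ (WithLp.toLp 2 fun a => a.elim 0 fun k => e.ζ x.1 (none, some k))

/-- the slice terms are `⟪g i, u⟫_Y h i` -/
def h0 (c : e.ZC) : Bool → e.Y.M × ℝ → Ef κ ν
  | true => fun x => -i1 _ _ (i1 _ _ (e.m.ρ none x.1 (c.Φ x)))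
  | false => fun x => i1 _ _ (i2 _ _ (e.ζ x.1))

section abs
variable {Y : Mf 3} [CompactSpace Y.M] {ι V W J : Type} [Fintype ι] [Fintype J]
  [NormedAddCommGroup V] [InnerProductSpace ℝ V] [FiniteDimensional ℝ V]
  [NormedAddCommGroup W] [InnerProductSpace ℝ W] [FiniteDimensional ℝ W]
  (F : Fr Y.I Y.M ι) (A : Op (Y.M × ℝ) (Option ι) V W) (g : J → Y.M × ℝ → V) (h : J → Y.M × ℝ → W)

/-- a local operator with slice terms -/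
def sT (u : Y.M × ℝ → V) (x : Y.M × ℝ) : W :=
  A.app (cyl F) u x + ∑ i, (∫ y, ⟪g i (y, x.2), u (y, x.2)⟫_ℝ ∂F.μ) • h i x

structure SH : Prop where
  tame : ∃ C, (cyl F).Tame C
  good : ∃ C, A.Good (cyl F) C
  cl : A.Cliff (cyl F)
  σ : ∀ a x, A.σ a x = A.σ a (x.1, 0)
  cg : ∀ i, (cyl F).Cb (g i)
  ch : ∀ i, (cyl F).Cb (h i)
  qh : ∀ i x, A.q x (h i x) = h i x

/-- `v` solves the adjoint equation -/
structure Co (v : Y.M × ℝ → W) : Prop where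
  sm : Sm (IC Y.I) v
  q : ∀ x, A.q x (v x) = v x
  eq : ∀ u ∈ Sec (IC Y.I) A.p, ∫ x, ⟪v x, sT F A g h u x⟫_ℝ ∂(cyl F).μ = 0

end abs

/-- the linearisation -/
abbrev lin0 (c : e.ZC) : (e.Y.M × ℝ → Cf κ ν) → e.Y.M × ℝ → Ef κ ν :=
  sT e.D.F (op0 c) (g0 c) (h0 c)

/-- the `L²` cokernel -/
def Ann (c : e.ZC) : Submodule ℝ (e.D.Z.H 0 (pE e.cyl)) :=
  ⨅ (u ∈ Sec (IC e.Y.I) (pC e.cyl)) (w : Sec (IC e.Y.I) (pE e.cyl)) (_ : Lin c u w.1),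
    (ℝ ∙ e.D.Z.toH 0 _ w)ᗮ

/-- the level is strictly decreasing wherever it lies in `S` -/
def Neg (c : e.ZC) : Prop := ∀ s, lb c s ∈ e.S → deriv (lb c) s < 0

variable (κ lam ν)

/-- **DZ-LIN** -/
def LinStmt : Prop := ∀ e : En3 κ lam ν, e.OK → ∀ c : e.ZC, e.cyl.Adm c → OpAt e.cyl c →
  Nc e.D.Z.toPre e.D.Z.P (full e.cyl c) → (∀ i, e.D.Z.Cb (c.a i)) → e.D.Z.Cb c.Φ →
  SH e.D.F (op0 c) (g0 c) (h0 c) ∧ ∀ u ∈ Sec (IC e.Y.I) (pC e.cyl),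
    lin0 c u ∈ Sec (IC e.Y.I) (pE e.cyl) ∧ Lin c u (lin0 c u) ∧
      ∀ x, s2 _ _ (lin0 c u x) = lG e.cyl c u x

/-- **DZ-NEG** -/
def NegStmt : Prop := ∀ (e : En3 κ lam ν) (g : e.Gen), g.OK → ∀ C : ℝ, ∃ η > 0, ∀ c : e.ZC,
  e.Inv → e.cyl.Adm c → Win45.Alm c univ η → Sup c univ C → Neg c

/-- **DZ-INV**: functions of the level -/
def InvStmt : Prop := ∀ (l G : ℝ → ℝ) (S : Set ℝ), ContDiff ℝ ∞ l → IsClosed S →
  (∀ s, l s ∈ S → deriv l s < 0) → ContDiff ℝ ∞ G → HasCompactSupport G → (∀ s, G s ≠ 0 → l s ∈ S) →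
  ∃ b : ℝ → ℝ, ContDiff ℝ ∞ b ∧ support b ⊆ S ∧ ∀ s, b (l s) = G s

/-- **DZ-MS**: the linearisation of a term is a term -/
def MsStmt : Prop := ∀ e : En3 κ lam ν, e.OK → ∀ c : e.ZC, e.cyl.Adm c → ContDiff ℝ ∞ (lb c) ∧
  ∀ u ∈ Sec (IC e.Y.I) (pC e.cyl), ∃ G : ℝ → ℝ, ContDiff ℝ ∞ G ∧ HasCompactSupport G ∧
    ∀ t, HasDerivAt (fun r => lb (vr c u r) t) (G t) 0

/-- **DZ-DICH**: static, or a level in the interior of `S` is attained -/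
def DichStmt : Prop := ∀ (e : En3 κ lam ν) (g : e.Gen), g.OK → ∀ (W : Type) (T : W → Option e.YT) q
  (c : e.ZC) (x y : e.YC), En3.Gd x → En3.Gd y → e.cyl.Adm c → e.cyl.EqOn (pt T q) c univ →
  e.nk.Asy false x c → e.nk.Asy true y c → Neg c →
  ((∀ t, lb c t ∉ e.S) ∧ (∀ t, gn (sl c t) = 0) ∧ L x = L y) ∨ ∃ t, lb c t ∈ interior e.S

/-- **DZ-STAT**: a finite dimensional space of `L²` sections is not translation invariant -/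
def StatStmt : Prop := ∀ e : En3 κ lam ν, e.OK → 0 < e.w → ∀ c : e.ZC, e.cyl.Adm c →
  ED c = 0 → EC c = 0 → (∀ t, gn (sl c t) = 0) → FiniteDimensional ℝ (Ann c) → Ann c = ⊥

/-- **DZ-SLAB** -/
def SlabStmt : Prop := ∀ e : En3 κ lam ν, e.OK → ∀ c : e.ZC, e.cyl.Adm c → OpAt e.cyl c →
  SH e.D.F (op0 c) (g0 c) (h0 c) → ED c = 0 → (∃ x, c.Φ x ≠ 0) →
  ∀ v, Co e.D.F (op0 c) (g0 c) (h0 c) v → (∀ x, s2 _ _ (v x) = 0) → ∀ a b : ℝ,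
    (∀ (χ : ℝ → ℝ) (f : e.Y.M → F2 κ), ContDiff ℝ ∞ χ → tsupport χ ⊆ Ioo a b → Sm e.Y.I f →
      (∀ y, e.cyl.p2 (y, 0) (f y) = f y) →
      ∫ x, ⟪v x, i1 _ _ (i2 _ _ (χ x.2 • f x.1))⟫_ℝ ∂e.D.Z.μ = 0) →
    ∀ y, ∀ t ∈ Ioo a b, v (y, t) = 0

variable {κ lam ν}

/-- **DZ-MU**: the centring row is hit by the translations -/
def MuStmt (d : Dt κ lam ν) {N : Type} [Fintype N] (ty : N → d.𝓔) : Prop := ∀ (i : N) (T : Type)
  [NormedAddCommGroup T] [NormedSpace ℝ T] [FiniteDimensional ℝ T] β, Md (d.cc ty i T 1 β) →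
  (d.e (ty i)).ψ (L (β i true)) < (d.e (ty i)).ψ (L (β i false)) → ∀ k, 7 ≤ k → ∀ q y,
  (d.cc ty i T 1 β).Sol q y → ∀ ℓ : (d.cc ty i T 1 β).Y k →L[ℝ] ℝ,
    (∀ u, ℓ (fderiv ℝ ((d.cc ty i T 1 β).F k q) ((d.cc ty i T 1 β).pt k y) u) = 0) →
    ∀ m, ℓ (0, 0, 0, m) = 0

/-- **DZ-COK** -/
def CokStmt : Prop := ∀ (Y : Mf 3) [CompactSpace Y.M] (ι V W J : Type) [Fintype ι] [Fintype J]
  [NormedAddCommGroup V] [InnerProductSpace ℝ V] [FiniteDimensional ℝ V]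
  [NormedAddCommGroup W] [InnerProductSpace ℝ W] [FiniteDimensional ℝ W]
  (F : Fr Y.I Y.M ι) (A : Op (Y.M × ℝ) (Option ι) V W) (g : J → Y.M × ℝ → V) (h : J → Y.M × ℝ → W),
  SH F A g h → ∀ k (ℓ : (cyl F).H k A.q →L[ℝ] ℝ),
    (∀ u ∈ Sec (IC Y.I) A.p, ∀ w : Sec (IC Y.I) A.q, w.1 = sT F A g h u → ℓ ((cyl F).toH k _ w) = 0) →
    ∃ v z, Co F A g h v ∧ Is (cyl F).toPre 0 A.q z v ∧
      ∀ w, ℓ ((cyl F).toH k _ w) = ⟪z, (cyl F).toH 0 _ w⟫_ℝ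

/-- **DZ-UCP** -/
def UcpStmt : Prop := ∀ (Y : Mf 3) [CompactSpace Y.M] (ι V W J : Type) [Fintype ι] [Fintype J]
  [NormedAddCommGroup V] [InnerProductSpace ℝ V] [FiniteDimensional ℝ V]
  [NormedAddCommGroup W] [InnerProductSpace ℝ W] [FiniteDimensional ℝ W]
  (F : Fr Y.I Y.M ι) (A : Op (Y.M × ℝ) (Option ι) V W) (g : J → Y.M × ℝ → V) (h : J → Y.M × ℝ → W),
  SH F A g h → ∀ v, Co F A g h v → ∀ t, (∀ y, v (y, t) = 0) → v = 0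

end Crest.Agent.X212.Dz34
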