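import Crest.Agent.X212.Dz34.Defs
import Crest.Agent.X212.Dns43.Loc
import Crest.Agent.X212.Lw78.Cy

/-!
# Row 212, SW-DENS-Z (helper34): regularity of the cokernel
-/

set_option autoImplicit false
set_option linter.unusedSectionVars false
noncomputable section
open scoped Manifold ContDiff Topology InnerProductSpace
open MeasureTheory Set Function Filter

namespace Crest.Agent.X212.Dz34
open An An.Pre Sob92 Ell97 Cyf70 Dl23 Lw78
open M (Mf)

section av
variable {E : Type} [NormedAddCommGroup E] [NormedSpace ℝ E] [FiniteDimensional ℝ E]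
  [MeasurableSpace E] [BorelSpace E]
  {HM : Type} [TopologicalSpace HM] {I : ModelWithCorners ℝ E HM} [I.Boundaryless]
  {Y : Type} [TopologicalSpace Y] [ChartedSpace HM Y] [IsManifold I ∞ Y] [T2Space Y]
  [MeasurableSpace Y] [BorelSpace Y] [SecondCountableTopology Y] [CompactSpace Y]
  {ι : Type} [Fintype ι] {F : Pre I Y ι} {f g : Y × ℝ → ℝ}
  {V W : Type} [NormedAddCommGroup V] [InnerProductSpace ℝ V] [FiniteDimensional ℝ V]
  [NormedAddCommGroup W] [InnerProductSpace ℝ W] [FiniteDimensional ℝ W]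

theorem hcs_sI (h : HasCompactSupport g) : HasCompactSupport (sI F g) :=
  .intro (isCompact_univ.prod (h.isCompact.image continuous_snd)) fun x hx => by
    simp [sI, fun y => image_eq_zero_of_notMem_tsupport (f := g) (x := (y, x.2))
      fun k => hx ⟨trivial, _, k, rfl⟩]

theorem int_sI (hf : Sm (IC I) f) (hg : Sm (IC I) g) (c : HasCompactSupport g) :
    ∫ x, sI F f x * g x ∂(cylP F).μ = ∫ t, (∫ y, f (y, t) ∂F.μ) * ∫ y, g (y, t) ∂F.μ := by
  rw [integral_cyl F ((sm_sI hf).continuous.fun_mul hg.continuous) c.mul_left]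
  simp only [sI, integral_const_mul]

theorem n2_zero (j : ℕ) : N2 (cylP F) j (0 : Y × ℝ → ℝ) = 0 := by
  induction j with
  | zero => simp [n2]
  | succ j ih => simp [n2, ih]

theorem n2_sI (j : ℕ) : ∀ g : Y × ℝ → ℝ, Sm (IC I) g → HasCompactSupport g →
    N2 (cylP F) j (sI F g) ≤ (F.μ.real univ + 1) ^ 2 * N2 (cylP F) j g := by
  have m0 : 0 ≤ F.μ.real univ := measureReal_nonneg
  have h0 : ∀ g : Y × ℝ → ℝ, Sm (IC I) g → HasCompactSupport g →
      N2 (cylP F) 0 (sI F g) ≤ (F.μ.real univ + 1) ^ 2 * N2 (cylP F) 0 g := fun g hg c => by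
    have c2 : ∀ {u : Y × ℝ → ℝ}, HasCompactSupport u → HasCompactSupport fun x => u x ^ 2 :=
      fun h => h.mono fun x hx k => hx (by simp [k])
    have s := sm_sI (F := F) (hg.pow 2)
    simp only [N2, n2, Real.norm_eq_abs, sq_abs]
    calc _ ≤ ∫ x, (F.μ.real univ + 1) * sI F (fun x => g x ^ 2) x ∂(cylP F).μ :=
          integral_mono (((sm_sI hg).continuous.fun_pow 2).integrable_of_hasCompactSupport
            (c2 (hcs_sI c))) ((s.continuous.integrable_of_hasCompactSupport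
            (hcs_sI (c2 c))).const_mul _) fun x => sq_int F (sm_slice_fst hg _).continuous
      _ ≤ _ := by
          rw [integral_const_mul, integral_cyl F s.continuous (hcs_sI (c2 c)),
            integral_cyl F (hg.continuous.fun_pow 2) (c2 c)]
          simp only [sI, integral_const, smul_eq_mul, integral_const_mul]
          have : 0 ≤ ∫ t, ∫ y, g (y, t) ^ 2 ∂F.μ :=
            integral_nonneg fun _ => integral_nonneg fun _ => sq_nonneg _
          nlinarith
  induction j with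
  | zero => exact h0
  | succ j ih =>
    intro g hg c
    rw [N2, N2, n2_succ, n2_succ, mul_add, Finset.mul_sum]
    refine add_le_add (h0 g hg c) (Finset.sum_le_sum fun a _ => ?_)
    rw [← D_def, funext (D_sI hg a)]
    cases a with
    | none => exact ih _ ((cylP F).sm_D hg none) ((cylP F).hcs_D c none)
    | some a =>
      exact (ih 0 contMDiff_const HasCompactSupport.zero).trans (mul_le_mul_of_nonneg_left
        ((n2_zero j).trans_le (n2_nonneg _ _)) (by positivity))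

theorem rep_av (j : ℕ) : (cylP F).Rep ((cylP F).lift j j (triv _ ℝ) (triv _ ℝ) (sI F)) (sI F) :=
  (rep_liftT (fun _ h => ⟨sm_sI h.1, hcs_sI h.2.1, fun _ => rfl⟩)
    (fun _ h _ k => funext fun _ => integral_add (intY F (sm_slice_fst h.1 _).continuous)
      (intY F (sm_slice_fst k.1 _).continuous))
    (fun r _ _ => funext fun _ => integral_smul r _)
    (show 0 ≤ F.μ.real univ + 1 by positivity) fun u h => by
      rw [nrm, nrm, ip_eq, ip_eq, ← Real.sqrt_sq (show 0 ≤ F.μ.real univ + 1 by positivity),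
        ← Real.sqrt_mul (sq_nonneg _)]
      exact Real.sqrt_le_sqrt (n2_sI j u h.1 h.2.1)).1

variable (F) in
/-- a slice term -/
def kH (j : ℕ) (p : Y × ℝ → V →L[ℝ] V) (q : Y × ℝ → W →L[ℝ] W) (g : Y × ℝ → V) (h : Y × ℝ → W) :
    (cylP F).H j p →L[ℝ] (cylP F).H j q :=
  (cylP F).mulH j _ q (fun x => ContinuousLinearMap.toSpanSingleton ℝ (h x)) ∘L
    (cylP F).lift j j (triv _ ℝ) (triv _ ℝ) (sI F) ∘L (cylP F).mulH j p _ fun x => innerSL ℝ (g x)

theorem rep_k {j : ℕ} {p : Y × ℝ → V →L[ℝ] V} {q : Y × ℝ → W →L[ℝ] W} {g : Y × ℝ → V}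
    {h : Y × ℝ → W} (hg : (cylP F).Cb g) (hh : (cylP F).Cb h) (hq : ∀ x, q x (h x) = h x) :
    (cylP F).Rep (kH F j p q g h) fun u x => sI F (fun y => ⟪g y, u y⟫_ℝ) x • h x :=
  RepT_comp (rep_mulH (Cb_clm (ContinuousLinearMap.smulRightL ℝ ℝ W 1) hh)
    fun x r _ => by simp [hq]) (RepT_comp (rep_av j) (rep_mulH (Cb_clm (innerSL ℝ) hg) (Maps.triv _)))

theorem adj_k {j : ℕ} {p : Y × ℝ → V →L[ℝ] V} {q : Y × ℝ → W →L[ℝ] W} {g : Y × ℝ → V}
    {h : Y × ℝ → W} {C : ℕ → ℝ} (hp : (cylP F).IsProj p C) (hg : (cylP F).Cb g) (hh : (cylP F).Cb h)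
    (hq : ∀ x, q x (h x) = h x) (y : (cylP F).H j q) (u : Sec (IC I) p) :
    ⟪(cylP F).incl j 0 p (kH F j q p h (fun x => p x (g x)) y), (cylP F).toH 0 p u⟫_ℝ =
      ⟪(cylP F).incl j 0 q y, kH F 0 p q g h ((cylP F).toH 0 p u)⟫_ℝ := by
  have r := rep_k (j := j) (p := q) (q := p) hh (Cb_app ⟨_, hp.cb⟩ hg) fun x => hp.idem x _
  induction y using H_ind with
  | hP => exact isClosed_eq (by fun_prop) (by fun_prop)
  | h v =>
    have a := sm_inner hh.choose_spec.1 v.2.1
    have b := sm_inner hg.choose_spec.1 u.2.1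
    have ca : HasCompactSupport fun y => ⟪h y, v.1 y⟫_ℝ := v.2.2.1.mono fun x hx k => hx (by simp [k])
    have cb : HasCompactSupport fun y => ⟪g y, u.1 y⟫_ℝ := u.2.2.1.mono fun x hx k => hx (by simp [k])
    rw [RepT_toH r v, RepT_toH (rep_k hg hh hq) u, incl_toH j.zero_le, incl_toH j.zero_le, inner_toH,
      inner_toH]
    simp only [ip, real_inner_smul_left, real_inner_smul_right, hp.symm, u.2.2.2,
      real_inner_comm (h _)]
    rw [int_sI a b cb, int_sI b a ca]
    simp only [mul_comm]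

end av

theorem cokStmt : CokStmt := fun Y _ ι V W J _ _ _ _ _ _ _ _ F A g h H k ℓ hl => by
  obtain ⟨⟨C, hF⟩, ⟨C', hA⟩, hc, -, cg, ch, qh⟩ := H
  obtain ⟨K, Ks, rK, aK⟩ : ∃ (K : ∀ j, (cyl F).H j A.p →L[ℝ] (cyl F).H j A.q)
      (Ks : ∀ j, (cyl F).H j A.q →L[ℝ] (cyl F).H j A.p), (∀ j, (cyl F).Rep (K j) fun u x =>
        ∑ i, (∫ y, ⟪g i (y, x.2), u (y, x.2)⟫_ℝ ∂F.μ) • h i x) ∧ ∀ j y u,
      ⟪(cyl F).incl j 0 _ (Ks j y), (cyl F).toH 0 _ u⟫_ℝ =
        ⟪(cyl F).incl j 0 _ y, K 0 ((cyl F).toH 0 _ u)⟫_ℝ := by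
    refine ⟨fun j => ∑ i, kH F.toPre j A.p A.q (g i) (h i),
      fun j => ∑ i, kH F.toPre j A.q A.p (h i) fun x => A.p x (g i x), fun j =>
      RepT_sum (F := cylP F.toPre) (F' := cylP F.toPre) _ fun i _ => rep_k (cg i) (ch i) (qh i),
      fun j y u => ?_⟩
    change ⟪(cylP F.toPre).incl j 0 _ _, (cylP F.toPre).toH 0 _ u⟫_ℝ =
      ⟪(cylP F.toPre).incl j 0 _ y, _⟫_ℝ
    erw [ContinuousLinearMap.sum_apply, ContinuousLinearMap.sum_apply, map_sum, sum_inner, inner_sum]
    exact Finset.sum_congr rfl fun i _ => adj_k hA.p (cg i) (ch i) (qh i) y u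
  let T : Sec (IC Y.I) A.p → Sec (IC Y.I) A.q := fun u => LS hA u + ⟨_, RepT_mem (rK 0) u⟩
  have hT : ∀ j u, (cyl F).toH j _ (T u) = A.H (cyl F) j ((cyl F).toH (j + 1) _ u) +
      K j ((cyl F).toH j _ u) := fun j u => by
    rw [H_toH hA, map_add]; exact congrArg _ (RepT_toH (rK j) u).symm
  obtain ⟨z, hz⟩ : ∃ z, ∀ w, ℓ ((cyl F).toH k _ w) = ⟪z, (cyl F).toH 0 _ w⟫_ℝ := by
    replace hl : ∀ u, ℓ ((cyl F).toH k _ (T u)) = 0 := fun u => hl u u.2 _ rfl
    induction k with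
    | zero => exact ⟨(InnerProductSpace.toDual ℝ _).symm ℓ, fun u => by
        rw [InnerProductSpace.toDual_symm_apply]⟩
    | succ j ih =>
      obtain ⟨l, e⟩ := Dns43.down (par hF hA hc) ℓ (-ℓ ∘L K (j + 1)) fun x => by
        change ℓ (A.H _ (j + 1) x) = -ℓ (K _ ((cyl F).incl _ _ _ x))
        induction x using H_ind with
        | hP => exact isClosed_eq (by fun_prop) (by fun_prop)
        | h u => rw [incl_toH (by omega), eq_neg_iff_add_eq_zero, ← map_add, ← hT, hl]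
      have e' : ∀ w, ℓ ((cyl F).toH (j + 1) _ w) = l ((cyl F).toH j _ w) := fun w =>
        (e _).trans (congrArg l (incl_toH j.le_succ w))
      obtain ⟨z, hz⟩ := ih l fun u => (e' _).symm.trans (hl u)
      exact ⟨z, fun w => (e' w).trans (hz w)⟩
  have h0 : ∀ u, ⟪z, (cyl F).toH 0 _ (T u)⟫_ℝ = 0 := fun u => (hz _).symm.trans (hl u u.2 _ rfl)
  obtain ⟨v, h1, -, h2, h3⟩ := smooth_of_all hF (k := 0) (x := z) fun j _ => by
    induction j with
    | zero => exact ⟨z, incl_self z⟩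
    | succ j ih =>
      obtain ⟨y, rfl⟩ := ih j.zero_le
      obtain ⟨v, hv⟩ := Dns43.up (par hF hA hc) (z := (cyl F).incl j 0 _ y)
          (w := -Ks j y) fun x => by
        refine Eq.trans ?_ (congrArg _ (dn0_incl A.p j _).symm)
        change ⟪A.H _ 0 x, _⟫_ℝ = ⟪(cyl F).incl (0 + 1) 0 A.p x, _⟫_ℝ
        induction x using H_ind with
        | hP => exact isClosed_eq (by fun_prop) (by fun_prop)
        | h u =>
          have e := h0 u
          rw [hT, inner_add_right, ← eq_neg_iff_add_eq_zero] at e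
          rw [real_inner_comm, e, incl_toH (k := 0 + 1) zero_le_one, map_neg, inner_neg_right, ← aK,
            real_inner_comm]
      exact ⟨v, by rw [← hv, ← dn0_incl]; rfl⟩
  refine ⟨v, z, ⟨h1.choose_spec.1, h2, fun u hu => ?_⟩, h3, hz⟩
  have e := h3.inner_toH (T ⟨u, hu⟩)
  rw [incl_self, h0] at e
  exact e.symm

end Crest.Agent.X212.Dz34
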