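import Crest.Agent.X212.Dz34.Cok
import Crest.Agent.X212.Ucp64.Log

/-!
# Row 212, SW-DENS-Z (helper34): unique continuation from a slice
-/

set_option autoImplicit false
set_option linter.unusedSectionVars false
noncomputable section
open scoped Manifold ContDiff Topology InnerProductSpace
open MeasureTheory Set Function Filter

namespace Crest.Agent.X212.Dz34
open An An.Pre Sob92 Ell97 Cyf70 Dl23 Lw78
open M (Mf)

section ev
variable {E : Type} [NormedAddCommGroup E] [NormedSpace ℝ E] [FiniteDimensional ℝ E]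
  [MeasurableSpace E] [BorelSpace E]
  {HM : Type} [TopologicalSpace HM] {I : ModelWithCorners ℝ E HM} [I.Boundaryless]
  {Y : Type} [TopologicalSpace Y] [ChartedSpace HM Y] [IsManifold I ∞ Y] [T2Space Y]
  [MeasurableSpace Y] [BorelSpace Y] [SecondCountableTopology Y] [CompactSpace Y]
  {ι : Type} [Fintype ι]
  {V W : Type} [NormedAddCommGroup V] [InnerProductSpace ℝ V] [FiniteDimensional ℝ V]
  [NormedAddCommGroup W] [InnerProductSpace ℝ W] [FiniteDimensional ℝ W]
  (F : Fr I Y ι) {u v f : Y × ℝ → W}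

/-- a slice as an element of `L²` -/
def zs (hu : Sm (IC I) u) (t : ℝ) : F.H 0 (triv Y W) :=
  F.toH 0 _ ⟨fun y => u (y, t), sm_slice_fst hu t, .of_compactSpace _, fun _ => rfl⟩

theorem zs_inner (hu : Sm (IC I) u) (hv : Sm (IC I) v) (t : ℝ) :
    ⟪zs F hu t, zs F hv t⟫_ℝ = ∫ y, ⟪u (y, t), v (y, t)⟫_ℝ ∂F.μ := inner_toH _ _ _ _ _

theorem zs_deriv (hu : Sm (IC I) u) (hv : Sm (IC I) v) (t : ℝ) :
    HasDerivAt (fun s => ⟪zs F hu s, zs F hv s⟫_ℝ)
      (⟪zs F ((cyl F).sm_D hu none) t, zs F hv t⟫_ℝ + ⟪zs F hu t, zs F ((cyl F).sm_D hv none) t⟫_ℝ) t := by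
  simp only [zs_inner]
  rw [← integral_add (intY _ (sm_slice_fst (sm_inner ((cyl F).sm_D hu none) hv) t).continuous)
    (intY _ (sm_slice_fst (sm_inner hu ((cyl F).sm_D hv none)) t).continuous)]
  exact (hasDerivAt_int F.toPre (sm_inner hu hv) t).congr_deriv
    (integral_congr_ae (.of_forall fun y => D_inner _ none hu hv _))

theorem zs_le {w : Y × ℝ → V} (hu : Sm (IC I) u) (hw : Sm (IC I) w) {C t : ℝ} (hC : 0 ≤ C)
    (h : ∀ y, ‖u (y, t)‖ ≤ C * ‖w (y, t)‖) : ‖zs F hu t‖ ≤ C * ‖zs F hw t‖ := by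
  refine abs_le_of_sq_le_sq' ?_ (by positivity) |>.2
  rw [mul_pow, ← real_inner_self_eq_norm_sq, ← real_inner_self_eq_norm_sq, zs_inner, zs_inner,
    ← integral_const_mul]
  refine integral_mono (intY _ (sm_slice_fst (sm_inner hu hu) t).continuous)
    ((intY _ (sm_slice_fst (sm_inner hw hw) t).continuous).const_mul _) fun y => ?_
  simp only [real_inner_self_eq_norm_sq, ← mul_pow]
  exact pow_le_pow_left₀ (norm_nonneg _) (h y) 2

theorem ucp_ev {s : ι → Y → W →L[ℝ] W} (hs : ∀ k, Sm I (s k))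
    (sk : ∀ k y a b, ⟪s k y a, b⟫_ℝ = -⟪a, s k y b⟫_ℝ) (hv : Sm (IC I) v) (hf : Sm (IC I) f)
    (e : ∀ x, (cyl F).D none v x = f x - ∑ k, s k x.1 ((cyl F).D (some k) v x)) {C : ℝ}
    (hC : ∀ t, ‖zs F hf t‖ ≤ C * ‖zs F hv t‖) {t : ℝ} (h0 : ∀ y, v (y, t) = 0) : v = 0 := by
  let S := fun (u : Y × ℝ → W) (x : Y × ℝ) => ∑ k, s k x.1 ((cyl F).D (some k) u x)
  have sS : ∀ {u}, Sm (IC I) u → Sm (IC I) (S u) := fun h =>
    contMDiff_finset_sum fun k _ => (sm_fst (hs k)).clm_apply ((cyl F).sm_D h _)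
  let m := fun y => ∑ k, (F.D k (s k) y + F.dv k y • s k y)
  have sm : Sm I m := contMDiff_finset_sum fun k _ => (F.sm_D (hs k) k).add ((F.dv_sm k).smul (hs k))
  have hm := (sm_fst sm).clm_apply hv
  obtain ⟨K, hK⟩ := isCompact_univ.exists_bound_of_continuousOn sm.continuous.continuousOn
  have hD := (cyl F).sm_D hv none
  have eD : ∀ t, zs F hf t - zs F (sS hv) t = zs F hD t := fun t =>
    (map_sub _ _ _).symm.trans (congrArg _ (Subtype.ext (funext fun y => (e (y, t)).symm)))
  have sy : ∀ t, ⟪zs F hv t, zs F ((cyl F).sm_D (sS hv) none) t⟫_ℝ =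
      ⟪zs F (sS hv) t, zs F hD t⟫_ℝ + ⟪zs F hm t, zs F hD t⟫_ℝ := fun t => by
    have a := sm_slice_fst hv t
    have b := sm_slice_fst hD t
    have c : ∀ y, (cyl F).D none (S v) (y, t) = ∑ k, s k y (F.D k (fun y => (cyl F).D none v (y, t)) y) :=
      fun y => (hasDerivAt_slice F.toPre (sS hv) y t).unique (HasDerivAt.fun_sum fun k _ =>
        ((s k y).hasFDerivAt.comp_hasDerivAt t
          (hasDerivAt_slice F.toPre ((cyl F).sm_D hv (some k)) y t)).congr_deriv
          (congrArg _ ((congrFun (D_comm F.toPre hv k) _).trans (D_some F.toPre hD k _))))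
    have d : ∀ k, Sm I fun y => s k y (v (y, t)) := fun k => (hs k).clm_apply a
    simp only [zs_inner, c, inner_sum]
    rw [integral_finset_sum _ fun k _ =>
        intY _ (sm_inner a ((hs k).clm_apply (F.sm_D b k))).continuous,
      ← integral_add (intY _ (sm_slice_fst (sm_inner (sS hv) hD) t).continuous)
        (intY _ (sm_slice_fst (sm_inner hm hD) t).continuous),
      Finset.sum_congr rfl fun k _ => show _ = ∫ y, ⟪(cyl F).D none v (y, t),
        F.D k (fun y => s k y (v (y, t))) y + F.dv k y • s k y (v (y, t))⟫_ℝ ∂F.μ from ?_]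
    · refine (integral_finset_sum _ fun k _ => intY _ (sm_inner b ((F.sm_D (d k) k).add
        ((F.dv_sm k).smul (d k)))).continuous).symm.trans (integral_congr_ae (.of_forall fun y => ?_))
      beta_reduce
      rw [← inner_sum, ← inner_add_left, real_inner_comm]
      refine congrArg (⟪·, _⟫_ℝ) ?_
      simp only [S, m, Pi.add_apply, Pi.smul_apply', D_app F.toPre _ (hs _) a,
        ContinuousLinearMap.sum_apply, ← Finset.sum_add_distrib,
        ContinuousLinearMap.add_apply, ContinuousLinearMap.smul_apply]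
      refine Finset.sum_congr rfl fun k _ => ?_
      rw [show (cyl F).D (some k) v (y, t) = _ from D_some F.toPre hv k _]
      abel
    · refine neg_injective ?_
      rw [← integral_neg, ← integral_neg]
      simp only [← sk, ← inner_neg_right, neg_add', real_inner_comm (F.D _ _ _)]
      exact ibp_fun F k b (.of_compactSpace _) (d k)
  have key : ∀ t', ⟪zs F hv t', zs F hv t'⟫_ℝ = 0 := fun t' =>
    Ucp64.zero_of_form (a := min t t') (b := max t t') (C := 2 * (|C| + 1) * (|K| + 1))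
      (by positivity) (fun _ => innerₗ _) (fun _ _ _ => real_inner_comm _ _)
      (fun _ _ => real_inner_self_nonneg) (z := zs F hv) (w := zs F (sS hv)) (f := zs F hf)
      (r0 := 0) (r := fun t => ⟪zs F hm t, zs F hD t⟫_ℝ)
      (fun t _ => (zs_deriv F hv hv t).continuousAt.continuousWithinAt)
      (fun t _ => (zs_deriv F hv hv t).congr_deriv (by
        simp only [innerₗ_apply_apply, eD, Pi.zero_apply, real_inner_comm (zs F hv t)]; ring))
      (fun t _ => (zs_deriv F hv (sS hv) t).congr_deriv (by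
        simp only [innerₗ_apply_apply, eD, sy, real_inner_comm (zs F (sS hv) t)]; ring))
      (fun t _ => by
        simp only [innerₗ_apply_apply, real_inner_self_eq_norm_sq, ← mul_pow]
        exact pow_le_pow_left₀ (norm_nonneg _) ((hC t).trans (mul_le_mul_of_nonneg_right
          (by nlinarith [le_abs_self C, abs_nonneg C, abs_nonneg K]) (norm_nonneg _))) 2)
      (fun t _ => by simpa using mul_nonneg (by positivity) (sq_nonneg ‖zs F hv t‖))
      (fun t _ => by
        have h1 := zs_le F hm hv (t := t) (abs_nonneg K) fun y => ((m y).le_opNorm _).trans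
          (mul_le_mul_of_nonneg_right ((hK y trivial).trans (le_abs_self K)) (norm_nonneg _))
        have h2 : ‖zs F hD t‖ ≤ |C| * ‖zs F hv t‖ + ‖zs F (sS hv) t‖ := eD t ▸ (norm_sub_le _ _).trans
          (add_le_add ((hC t).trans (mul_le_mul_of_nonneg_right (le_abs_self C) (norm_nonneg _))) le_rfl)
        have h3 := (abs_real_inner_le_norm _ _).trans
          (mul_le_mul h1 h2 (norm_nonneg _) (by positivity))
        simp only [innerₗ_apply_apply, real_inner_self_eq_norm_sq]
        refine (sq_le_sq' (neg_le_of_abs_le h3) (le_of_abs_le h3)).trans ?_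
        have := norm_nonneg (zs F hv t)
        have := norm_nonneg (zs F (sS hv) t)
        generalize ‖zs F hv t‖ = z at *
        generalize ‖zs F (sS hv) t‖ = w at *
        have k1 : (|C| * z + w) ^ 2 ≤ (2 * (|C| + 1)) ^ 2 * (w ^ 2 + z ^ 2) := by
          have : |C| * z + w ≤ (|C| + 1) * (z + w) := by nlinarith [abs_nonneg C]
          refine (pow_le_pow_left₀ (by positivity) this 2).trans ?_
          rw [mul_pow, mul_pow]
          nlinarith [mul_le_mul_of_nonneg_left (show (z + w) ^ 2 ≤ 2 ^ 2 * (w ^ 2 + z ^ 2) by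
            nlinarith [sq_nonneg (z - w)]) (sq_nonneg (|C| + 1))]
        calc _ = |K| ^ 2 * (|C| * z + w) ^ 2 * z ^ 2 := by ring
          _ ≤ (|K| + 1) ^ 2 * ((2 * (|C| + 1)) ^ 2 * (w ^ 2 + z ^ 2)) * z ^ 2 := by
            gcongr; linarith
          _ = _ := by ring)
      (t0 := t) ⟨min_le_left _ _, le_max_left _ _⟩ ((zs_inner F hv hv t).trans (by simp [h0]))
      t' ⟨min_le_right _ _, le_max_right _ _⟩
  have := openPos F.toPre
  funext ⟨y, t'⟩
  have c := (sm_slice_fst (sm_inner hv hv) t').continuous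
  exact inner_self_eq_zero.1 (congrFun ((c.ae_eq_iff_eq F.μ continuous_zero).1
    ((integral_eq_zero_iff_of_nonneg (fun _ => real_inner_self_nonneg) (intY _ c)).1
      ((zs_inner F hv hv t').symm.trans (key t')))) y)

theorem adj_fun {A : Op (Y × ℝ) (Option ι) V W} {C : ℕ → ℝ} (h : A.Good (cyl F) C)
    (u : Sec (IC I) A.p) (hv : Sm (IC I) v) : ∫ x, ⟪v x, A.app (cyl F) u.1 x⟫_ℝ ∂(cyl F).μ =
      ∫ x, ⟪(A.adj (cyl F)).app (cyl F) v x, u.1 x⟫_ℝ ∂(cyl F).μ := by
  have hσ : ∀ a, Sm (IC I) fun x => Op.tr (A.σ a x) := fun a => (trL V W).contMDiff.comp (h.σ a).1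
  have hB : Sm (IC I) fun x => Op.tr (A.B x) (v x) := ((trL V W).contMDiff.comp h.B.1).clm_apply hv
  have s := fun a => (hσ a).clm_apply hv
  have i := fun a => (cyl F).integrable_inner ((cyl F).sm_D u.2.1 a).continuous
    ((cyl F).hcs_D u.2.2.1 a) (s a).continuous
  have j := fun a => (cyl F).integrable_inner u.2.1.continuous u.2.2.1
    (((cyl F).sm_D (s a) a).neg.sub (((cyl F).dv_sm a).smul (s a))).continuous
  have k := (cyl F).integrable_inner u.2.1.continuous u.2.2.1 hB.continuous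
  calc _ = ∫ x, ∑ a, ⟪(cyl F).D a u.1 x, Op.tr (A.σ a x) (v x)⟫_ℝ + ⟪u.1 x, Op.tr (A.B x) (v x)⟫_ℝ
        ∂(cyl F).μ := by
        simp only [Op.app, op, inner_add_right, inner_sum, inner_tr, real_inner_comm (v _)]
    _ = _ := by
      rw [integral_add (integrable_finset_sum _ fun a _ => i a) k, integral_finset_sum _ fun a _ => i a,
        Finset.sum_congr rfl fun a _ => ibp_fun (cyl F) a u.2.1 u.2.2.1 (s a)]
      refine (congrArg (· + _) (integral_finset_sum _ fun a _ => j a).symm).trans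
        ((integral_add (integrable_finset_sum _ fun a _ => j a) k).symm.trans
          (integral_congr_ae (.of_forall fun x => ?_)))
      simp only [Op.app, op, Op.adj, inner_add_left, ContinuousLinearMap.comp_apply, h.p.symm, u.2.2.2,
        Pi.neg_apply, Pi.smul_apply', Pi.sub_apply, D_app _ _ (hσ _) hv]
      rw [← inner_sum, ← inner_add_right, ← inner_add_left, real_inner_comm]
      refine congrArg (⟪·, _⟫_ℝ) ?_
      simp only [ContinuousLinearMap.sub_apply, ContinuousLinearMap.sum_apply,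
        ContinuousLinearMap.add_apply, ContinuousLinearMap.neg_apply, ContinuousLinearMap.smul_apply,
        Finset.sum_sub_distrib, Finset.sum_add_distrib, Finset.sum_neg_distrib]
      abel

end ev

variable {Y : Mf 3} [CompactSpace Y.M] {ι V W J : Type} [Fintype ι] [Fintype J]
  [NormedAddCommGroup V] [InnerProductSpace ℝ V] [FiniteDimensional ℝ V]
  [NormedAddCommGroup W] [InnerProductSpace ℝ W] [FiniteDimensional ℝ W]
  {F : Fr Y.I Y.M ι} {A : Op (Y.M × ℝ) (Option ι) V W} {g : J → Y.M × ℝ → V} {h : J → Y.M × ℝ → W}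
  {v : Y.M × ℝ → W}

/-- the adjoint equation holds pointwise -/
theorem co_pt (H : SH F A g h) (c : Co F A g h v) (x : Y.M × ℝ) : (A.adj (cyl F)).app (cyl F) v x +
    ∑ i, sI F.toPre (fun y => ⟪h i y, v y⟫_ℝ) x • A.p x (g i x) = 0 := by
  obtain ⟨⟨C, hF⟩, ⟨C', hA⟩, -, -, cg, ch, -⟩ := H
  obtain ⟨C'', hB⟩ := good_adj hF hA
  have sh := fun i => sm_inner (ch i).choose_spec.1 c.sm
  have s1 := sm_app hB c.sm
  have s2 := fun i => (sm_sI (F := F.toPre) (sh i)).smul (hA.p.cb.1.clm_apply (cg i).choose_spec.1)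
  have s3 := (s1.add (contMDiff_finset_sum (t := Finset.univ) fun i _ => s2 i)).continuous
  have := openPos (cyl F).toPre
  have := lfm (cyl F).toPre
  refine congrFun ((s3.ae_eq_iff_eq (cyl F).μ continuous_zero).1 (ae_eq_of_ip s3.locallyIntegrable
    (continuous_zero.locallyIntegrable) fun φ => ?_)) x
  let u : Sec (IC Y.I) A.p := ⟨fun x => A.p x (φ.1 x), hA.p.cb.1.clm_apply φ.2.1,
    φ.2.2.1.mono fun x hx k => hx (by simp [k]), fun x => hA.p.idem x _⟩
  have sg := fun i => sm_inner (cg i).choose_spec.1 u.2.1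
  have cu : ∀ i, HasCompactSupport fun y => ⟪g i y, u.1 y⟫_ℝ := fun i =>
    u.2.2.1.mono fun x hx k => hx (by simp [k])
  have i1 : ∀ i, Integrable (fun x => ⟪sI F.toPre (fun y => ⟪g i y, u.1 y⟫_ℝ) x • h i x, v x⟫_ℝ)
      (cyl F).μ := fun i => (cyl F).integrable_inner ((sm_sI (F := F.toPre) (sg i)).smul (ch i).choose_spec.1).continuous (hcs_sI (cu i)).smul_right
    c.sm.continuous
  have i2 : ∀ i, Integrable (fun x => ⟪u.1 x, sI F.toPre (fun y => ⟪h i y, v y⟫_ℝ) x • A.p x (g i x)⟫_ℝ)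
      (cyl F).μ := fun i => (cyl F).integrable_inner u.2.1.continuous u.2.2.1 (s2 i).continuous
  have e : ∀ i, ∫ x, ⟪sI F.toPre (fun y => ⟪g i y, u.1 y⟫_ℝ) x • h i x, v x⟫_ℝ ∂(cyl F).μ =
      ∫ x, ⟪u.1 x, sI F.toPre (fun y => ⟪h i y, v y⟫_ℝ) x • A.p x (g i x)⟫_ℝ ∂(cyl F).μ := fun i => by
    simp only [real_inner_smul_left, real_inner_smul_right, ← hA.p.symm, u.2.2.2,
      real_inner_comm (g i _)]
    refine .trans ?_ (int_sI (sh i) (sg i) (cu i)).symm
    refine (integral_cyl F.toPre ((sm_sI (sg i)).continuous.fun_mul (sh i).continuous)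
      (hcs_sI (cu i)).mul_right).trans ?_
    simp only [sI, integral_const_mul]
    simp only [mul_comm]
  calc _ = ∫ x, ⟪u.1 x, (A.adj (cyl F)).app (cyl F) v x⟫_ℝ +
        ∑ i, ⟪u.1 x, sI F.toPre (fun y => ⟪h i y, v y⟫_ℝ) x • A.p x (g i x)⟫_ℝ ∂(cyl F).μ := by
        refine integral_congr_ae (.of_forall fun x => ?_)
        simp only [u, hA.p.symm, map_smul, hA.p.idem, show A.p x _ = _ from q_app hB v x]
        rw [← inner_sum, ← inner_add_right, real_inner_comm]; rfl
    _ = _ := by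
      rw [integral_add ((cyl F).integrable_inner u.2.1.continuous u.2.2.1 s1.continuous)
        (integrable_finset_sum _ fun i _ => i2 i), integral_finset_sum _ fun i _ => i2 i]
      simp only [← e, real_inner_comm ((A.adj (cyl F)).app (cyl F) v _), ← adj_fun F hA u c.sm,
        real_inner_comm _ (v _)]
      rw [← integral_finset_sum _ fun i _ => i1 i, ← integral_add ((cyl F).integrable_inner
        (u := A.app (cyl F) u.1) (LS hA u).2.1.continuous (LS hA u).2.2.1 c.sm.continuous)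
        (integrable_finset_sum _ fun i _ => i1 i)]
      refine .trans (integral_congr_ae (.of_forall fun x => ?_)) ((c.eq u.1 u.2).trans (by simp [ip]))
      simp only [sT, inner_add_left, sum_inner, real_inner_comm _ (v x)]; rfl

theorem ucpStmt : UcpStmt := fun Y _ ι V W J _ _ _ _ _ _ _ _ F A g h H v c t h0 => by
  have e := co_pt H c
  obtain ⟨⟨C, hF⟩, ⟨C', hA⟩, ⟨-, hc⟩, hσ, cg, ch, -⟩ := H
  obtain ⟨C'', hB⟩ := good_adj hF hA
  have cl : ∀ b x w w', ⟪A.σ none x (Op.tr (A.σ b x) w), w'⟫_ℝ + ⟪w, A.σ none x (Op.tr (A.σ b x) w')⟫_ℝ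
      = 2 * (cyl F).P none b x * ⟪A.q x w, w'⟫_ℝ := fun b x w w' => by
    rw [← inner_tr (A.σ none x), ← tr_inner (A.σ none x), add_comm]
    simpa [Op.adj] using hc none b x w w'
  have q : ∀ x w, A.σ none x (Op.tr (A.σ none x) w) = A.q x w := fun x w =>
    ext_inner_right ℝ fun w' => by
      have := cl none x w w'
      rw [← tr_inner, inner_tr] at this
      simp only [cyl, cP] at this; linarith
  have sσ : ∀ a, Sm Y.I fun y => A.σ a (y, 0) := fun a => sm_slice_fst (hA.σ a).1 0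
  have b1 : (cyl F).Cb fun x => A.σ none x ∘L (A.adj (cyl F)).B x := Cb_comp ⟨_, hA.σ none⟩ ⟨_, hB.B⟩
  have b2 : ∀ i, (cyl F).Cb fun x => A.σ none x (g i x) := fun i => Cb_app ⟨_, hA.σ none⟩ (cg i)
  have s1 := b1.choose_spec.1.clm_apply c.sm
  have s2 := fun i => (sm_sI (F := F.toPre) (sm_inner (ch i).choose_spec.1 c.sm)).smul
    (b2 i).choose_spec.1
  obtain ⟨K1, k1⟩ := b1
  choose K2 k2 using b2
  choose K3 k3 using ch
  have o : Sm (IC Y.I) fun _ : Y.M × ℝ => (1 : ℝ) := contMDiff_const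
  refine ucp_ev F (s := fun k y => A.σ none (y, 0) ∘L Op.tr (A.σ (some k) (y, 0)))
    (fun k => (sσ none).clm_comp ((trL V W).contMDiff.comp (sσ _)))
    (fun k y a b => eq_neg_of_add_eq_zero_left ((cl (some k) (y, 0) a b).trans (by simp [cyl, cP]))) c.sm
    (s1.add (contMDiff_finset_sum (t := Finset.univ) fun i _ => s2 i)) (fun x => ?_)
    (C := |K1 0| + ∑ i, |K3 i 0| * ‖zs F o 0‖ * (|K2 i 0| * ‖zs F o 0‖)) (fun s => ?_) h0
  · have d : A.q x ((cyl F).D none v x) = (cyl F).D none v x :=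
      ((A.q x).hasFDerivAt.comp_hasDerivAt x.2 (hasDerivAt_slice F.toPre c.sm x.1 x.2)).unique
        ((hasDerivAt_slice F.toPre c.sm x.1 x.2).congr_of_eventuallyEq (.of_forall fun s => by
          simp only [comp, ← q]; rw [hσ, ← hσ none (x.1, s), q, c.q]))
    have := congrArg (A.σ none x) (e x)
    simp only [Op.app, op, Fintype.sum_option, map_add, map_sum, map_smul, hA.σp, map_zero] at this
    simp only [Op.adj, ContinuousLinearMap.neg_apply, map_neg, q, d, Finset.sum_neg_distrib,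
      ContinuousLinearMap.comp_apply] at this
    simp only [← hσ, ContinuousLinearMap.comp_apply, Pi.add_apply, Pi.smul_apply', Op.adj]
    rw [← sub_eq_zero, ← neg_eq_zero, ← this]; abel
  · have n : ∀ {u : Y.M × ℝ → W} {K : ℕ → ℝ} (k : (cyl F).CBs u K),
        ‖zs F k.1 s‖ ≤ |K 0| * ‖zs F o 0‖ := fun k => zs_le F k.1 o (abs_nonneg _) fun y => by
      simpa [Dw] using (k.2 0 [] le_rfl (y, s)).trans (le_abs_self _)
    rw [show zs F _ s = zs F s1 s + ∑ i, ⟪zs F (k3 i).1 s, zs F c.sm s⟫_ℝ • zs F (k2 i).1 s by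
      simp only [zs_inner]; simp only [zs, ← map_smul, ← map_sum, ← map_add]
      exact congrArg _ (Subtype.ext (funext fun y => by simp [sI])), add_mul, Finset.sum_mul]
    refine (norm_add_le _ _).trans (add_le_add (zs_le F s1 c.sm (abs_nonneg _) fun y =>
      (ContinuousLinearMap.le_opNorm _ _).trans (mul_le_mul_of_nonneg_right
        ((k1.2 0 [] le_rfl (y, s)).trans (le_abs_self _)) (norm_nonneg _)))
      ((norm_sum_le _ _).trans (Finset.sum_le_sum fun i _ => ?_)))
    rw [norm_smul, mul_right_comm]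
    exact mul_le_mul ((norm_inner_le_norm _ _).trans
      (mul_le_mul_of_nonneg_right (n (k3 i)) (norm_nonneg _))) (n (k2 i)) (norm_nonneg _) (by positivity)

end Crest.Agent.X212.Dz34
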