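import Crest.Agent.X212.Dz34.Lin
import Crest.Agent.X212.Dz34.Ucp

/-!
# Row 212, SW-DENS-Z (helper34): the cokernel vanishes (function level)
-/

set_option autoImplicit false
set_option linter.unusedSectionVars false
noncomputable section
open scoped Manifold ContDiff Topology InnerProductSpace
open MeasureTheory Set Function Filter

namespace Crest.Agent.X212.Dz34
open An An.Pre Sob92 Ell97 Cyf70 Sw Sw.En3 Map77.S
open Map77 (P2 i1 i2 f2 s2 addB Nc f2_ps s2_ps ext2 inner2 f2_i1 s2_i1 f2_i2 s2_i2)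
open M (Mf)

theorem mem_of_dual {Y : Type*} [NormedAddCommGroup Y] [NormedSpace ℝ Y] {N : Submodule ℝ Y}
    (hN : IsClosed (N : Set Y)) (h : ∀ l : Y →L[ℝ] ℝ, (∀ v ∈ N, l v = 0) → l = 0) (e : Y) : e ∈ N :=
  by_contra fun he => by
    obtain ⟨f, u, h1, h2⟩ := geometric_hahn_banach_closed_point N.convex hN he
    obtain rfl := h f fun v hv => by_contra fun n => by
      simpa [n] using h1 _ (N.smul_mem (u / f v) hv)
    exact lt_asymm (h1 0 N.zero_mem) h2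

theorem fin_ann {E Y H : Type*} [NormedAddCommGroup E] [NormedSpace ℝ E] [NormedAddCommGroup Y]
    [NormedSpace ℝ Y] [NormedAddCommGroup H] [InnerProductSpace ℝ H] {L : E →L[ℝ] Y}
    (hL : L.IsFredholm) (J : Y →ₗ[ℝ] H) (K : Submodule ℝ H) (h1 : ∀ z ∈ K, ∀ v, ⟪z, J (L v)⟫_ℝ = 0)
    (h2 : ∀ z ∈ K, (∀ f, ⟪z, J f⟫_ℝ = 0) → z = 0) : FiniteDimensional ℝ K := by
  have := hL.finite_coker
  have : FiniteDimensional ℝ L.range.dualAnnihilator :=
    Module.Finite.equiv (Submodule.dualQuotEquivDualAnnihilator L.range)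
  refine FiniteDimensional.of_injective (V₂ := L.range.dualAnnihilator) ((J.dualMap ∘ₗ innerₗ H).restrict (p := K) (q := L.range.dualAnnihilator)
    fun z hz => (Submodule.mem_dualAnnihilator _).2 fun _ ⟨v, e⟩ => e ▸ h1 z hz v)
    ((injective_iff_map_eq_zero _).2 fun z e => Subtype.ext (h2 z.1 z.2 fun f => ?_))
  exact LinearMap.congr_fun (congrArg Subtype.val e) f

variable {κ lam ν : Type} [Fintype κ] [Fintype lam] [Fintype ν] [DecidableEq ν]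
  {e : En3 κ lam ν} {c : e.ZC}

theorem mem_ann {z} : z ∈ Ann c ↔ ∀ u ∈ Sec (IC e.Y.I) (pC e.cyl), ∀ w : Sec (IC e.Y.I) (pE e.cyl),
    Lin c u w.1 → ⟪z, e.D.Z.toH 0 _ w⟫_ℝ = 0 := by
  simp only [Ann, Submodule.mem_iInf, Submodule.mem_orthogonal_singleton_iff_inner_left]

/-- a term as a section -/
def gf (he : e.OK) {G : ℝ → ℝ} (h1 : ContDiff ℝ ∞ G) (h2 : HasCompactSupport G) {f : e.Y.M → F2 κ}
    (h3 : Sm e.Y.I f) (h4 : ∀ y, e.cyl.p2 (y, 0) (f y) = f y) : Sec (IC e.Y.I) (pE e.cyl) :=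
  ⟨fun x => i1 _ _ (i2 _ _ (G x.2 • f x.1)), (i1 (P2 (Eu ν) (F2 κ)) ℝ).contMDiff.comp
    ((i2 (Eu ν) (F2 κ)).contMDiff.comp ((sm_snd h1).smul (sm_fst h3))), .intro (isCompact_univ.prod h2.isCompact) fun x hx => by
      rw [image_eq_zero_of_notMem_tsupport fun k => hx ⟨trivial, k⟩, zero_smul, map_zero, map_zero],
    fun x => Map77.maps_i1 x _ (Map77.maps_i2 x _ (by rw [map_smul, Dr9.p2_inv x.1 x.2, h4]))⟩

theorem core (hD : DichStmt κ lam ν) (hS : StatStmt κ lam ν) (hL : SlabStmt κ lam ν) {g : e.Gen}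
    (hg : g.OK) {W : Type} {T : W → Option e.YT} {q} {x y : e.YC} (hx : En3.Gd x) (hy : En3.Gd y)
    (hc : e.cyl.Adm c) (hE : e.cyl.EqOn (pt T q) c univ) (ax : e.nk.Asy false x c)
    (ay : e.nk.Asy true y c) (hN : Neg c) (hl : Continuous (lb c)) (ho : OpAt e.cyl c)
    (H : SH e.D.F (op0 c) (g0 c) (h0 c)) (h0 : ∃ x, c.Φ x ≠ 0)
    (lin : ∀ u ∈ Sec (IC e.Y.I) (pC e.cyl), lin0 c u ∈ Sec (IC e.Y.I) (pE e.cyl) ∧ Lin c u (lin0 c u))
    {k : ℕ}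
    (ℓ : e.D.Z.H k (pE e.cyl) →L[ℝ] ℝ)
    (h1 : ∀ u ∈ Sec (IC e.Y.I) (pC e.cyl), ∀ w : Sec (IC e.Y.I) (pE e.cyl), w.1 = lin0 c u →
      ℓ (e.D.Z.toH k _ w) = 0)
    (h2 : ∀ G h1 h2 f h3 h4, (∀ s, G s ≠ 0 → lb c s ∈ e.S) →
      ℓ (e.D.Z.toH k _ (gf hg.ok (G := G) h1 h2 (f := f) h3 h4)) = 0)
    (h3 : ∀ w : Sec (IC e.Y.I) (pE e.cyl), (∀ x, f2 _ _ (w.1 x) = 0) → ℓ (e.D.Z.toH k _ w) = 0)
    (h4 : (∀ t, lb c t ∉ e.S) → FiniteDimensional ℝ (Ann c)) : ℓ = 0 := by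
  obtain ⟨v, z, co, iz, hz⟩ : ∃ (v : _) (z : e.D.Z.H 0 (pE e.cyl)), Co e.D.F (op0 c) (g0 c) (Dz34.h0 c) v ∧
      (∀ w, ⟪z, e.D.Z.toH 0 _ w⟫_ℝ = ∫ x, ⟪v x, w.1 x⟫_ℝ ∂e.D.Z.μ) ∧
      ∀ w, ℓ (e.D.Z.toH k _ w) = ⟪z, e.D.Z.toH 0 _ w⟫_ℝ :=
    let ⟨v, z, co, is, hz⟩ := cokStmt _ _ _ _ _ _ _ _ _ H k ℓ h1
    ⟨v, z, co, fun w => (congrArg (⟪·, _⟫_ℝ) (incl_self z).symm).trans (is.inner_toH w), hz⟩
  have eD : ED c = 0 := funext fun x => sub_eq_zero.2 (hE x trivial).1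
  suffices z = 0 from clm_ext fun w => (hz w).trans (by rw [this, inner_zero_left]; rfl)
  rcases hD e g hg W T q c x y hx hy hc hE ax ay hN with ⟨k1, k2, -⟩ | ⟨t, ht⟩
  · refine (Submodule.eq_bot_iff _).1 (hS e hg.ok hg.w c hc eD (funext fun x => ?_) k2 (h4 k1)) z
      (mem_ann.2 fun u hu w hw => (hz w).symm.trans ?_)
    · have : tau T q c x = 0 := by_contra fun n => k1 _ (Sep15.S.tau_ne n).2
      simp [EC, (hE x trivial).2, pt, this]
    · have b : ∀ x, f2 _ _ (w.1 x) = f2 _ _ (lin0 c u x) := fun x =>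
        ext2 ((hw x).1.unique ((lin u hu).2 x).1) ((hw x).2.unique ((lin u hu).2 x).2)
      have a := h3 (w - ⟨_, (lin u hu).1⟩) fun x => by
        rw [Submodule.coe_sub, Pi.sub_apply, map_sub, b, sub_self]
      rwa [map_sub, map_sub, h1 u hu ⟨_, (lin u hu).1⟩ rfl, sub_zero] at a
  · obtain ⟨a, b, hab, hI⟩ := mem_nhds_iff_exists_Ioo_subset.1
      (hl.continuousAt.preimage_mem_nhds (mem_interior_iff_mem_nhds.1 ht))
    have s := (s2 _ _).continuous.comp co.sm.continuous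
    have := openPos e.D.Z.toPre
    have := lfm e.D.Z.toPre
    refine (fun v0 : v = 0 => inner_self_eq_zero.1 (H_ind (P := fun w => ⟪z, w⟫_ℝ = 0) z
      (isClosed_eq (by fun_prop) continuous_const) fun w => (iz w).trans (by simp [v0])))
      <| ucpStmt _ _ _ _ _ _ _ _ _ H v co t fun y => hL e hg.ok c hc ho H eD h0 v co
      (congrFun ((s.ae_eq_iff_eq e.D.Z.μ continuous_zero).1 (ae_eq_of_ip s.locallyIntegrable
        continuous_zero.locallyIntegrable fun φ => ?_))) a b (fun χ f c1 c2 c3 c4 => ?_) y t hab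
    · let w : Sec (IC e.Y.I) (pE e.cyl) := ⟨fun x => i2 _ _ (φ.1 x),
        (i2 (P2 (Eu ν) (F2 κ)) ℝ).contMDiff.comp φ.2.1,
        φ.2.2.1.mono fun x hx k => hx (by simp [k]), fun x => Map77.maps_i2 x _ rfl⟩
      refine .trans ?_ (((iz w).symm.trans ((hz w).symm.trans (h3 w fun _ => rfl))).trans (by simp [Pre.ip]))
      simp only [Pre.ip, inner2, w, f2_i2, s2_i2, inner_zero_right, zero_add, comp_apply]
    · have := h2 χ c1 (isCompact_Icc.of_isClosed_subset (isClosed_tsupport _)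
        (c2.trans Ioo_subset_Icc_self)) f c3 c4 fun s hs => hI (c2 (subset_tsupport _ hs))
      rwa [hz, iz] at this

end Crest.Agent.X212.Dz34
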