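import Crest.Agent.X212.Dz34.Cok
import Crest.Agent.X212.Dl42.Main
import Crest.Agent.X212.Cyl58.PsJ
import Crest.Agent.X212.Sob92.NemF
import Crest.Agent.X212.Cht98.Cov
import Crest.Agent.X212.Dr9.Hol

/-!
# Row 212, SW-DENS-Z (helper34): the linearisation on the cylinder
-/

set_option autoImplicit false
set_option linter.unusedSectionVars false
noncomputable section
open scoped Manifold ContDiff Topology InnerProductSpace
open MeasureTheory Set Function Filter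

namespace Crest.Agent.X212.Dz34
open An An.Pre Sob92 Ell97 Cyf70 Lw78 Sw Sw.En3 Map77.S Dl42
open Map77 (P2 i1 i2 f2 s2 addB Nc f2_ps s2_ps ext2 inner2 f2_i1 s2_i1 f2_i2 s2_i2)
open M (Mf)

theorem cb_sI {Y : Mf 3} [CompactSpace Y.M] {ι : Type} [Fintype ι] {F : Pre Y.I Y.M ι}
    {g : Y.M × ℝ → ℝ} (h : (cylP F).Cb g) : (cylP F).Cb (sI F g) := by
  have k : ∀ (k : ℕ) (C : ℝ) (g : Y.M × ℝ → ℝ), Sm (IC Y.I) g → (cylP F).CB k g C →
      (cylP F).CB k (sI F g) (C * F.μ.real univ) := fun k C => by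
    have k0 : ∀ g : Y.M × ℝ → ℝ, (∀ x, ‖g x‖ ≤ C) → ∀ x, ‖sI F g x‖ ≤ C * F.μ.real univ :=
      fun g h x => norm_integral_le_of_norm_le_const (.of_forall fun y => h _)
    induction k with
    | zero => exact fun g _ h => CB_zero.2 (k0 g (CB_bound h))
    | succ k ih =>
      refine fun g s h => CB_succ.2 ⟨k0 g (CB_bound h), fun a => ?_⟩
      rw [funext (D_sI s a)]
      cases a with
      | none => exact ih _ ((cylP F).sm_D s none) (CB_D h none)
      | some a =>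
        exact ih _ contMDiff_const fun w hw x => (CB_const k 0 w hw x).trans
          (norm_zero.trans_le ((norm_nonneg _).trans (CB_bound h x)))
  obtain ⟨C, s, h⟩ := h
  exact ⟨_, sm_sI s, fun j => k j _ g s (h j)⟩

variable {κ lam ν : Type} [Fintype κ] [Fintype lam] [Fintype ν] [DecidableEq ν]
  {e : En3 κ lam ν} {c : e.ZC} {u : e.Y.M × ℝ → Cf κ ν}

/-- a tangent vector as a configuration -/
def tg (u : e.Y.M × ℝ → Cf κ ν) : e.ZC := ⟨fun i x => co i (u x), fun x => sp (u x)⟩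

theorem adm_tg (hu : Sm (IC e.Y.I) u) (hp : ∀ x, pC e.cyl x (u x) = u x) : e.cyl.Adm (tg u) :=
  ⟨fun i => (co i).contMDiff.comp hu, sp.contMDiff.comp hu, fun i x => by
    have := congrArg (co i) (hp x)
    simpa [co_apply, Bg.p1, Map77.idx_apply, tg] using this, fun x =>
    (s2_ps x _).symm.trans (congrArg sp (hp x))⟩

theorem adm_vr (hc : e.cyl.Adm c) (hu : e.cyl.Adm (tg u)) (r : ℝ) : e.cyl.Adm (vr c u r) :=
  ⟨fun i => (hc.sa i).add (contMDiff_const.mul (hu.sa i)), fun x => (hc.sΦ x).add (Wz78.SA.smul contMDiffAt_const (hu.sΦ x)),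
    fun i x => by
      simp only [vr, mul_add, Finset.sum_add_distrib, hc.pa, mul_left_comm _ r, ← Finset.mul_sum]
      exact congrArg (_ + r * ·) (hu.pa i x), fun x => by
      simp only [vr, map_add, map_smul, hc.pΦ]
      exact congrArg (_ + r • ·) (hu.pΦ x)⟩

theorem fy_vr (hc : e.cyl.Adm c) (hu : e.cyl.Adm (tg u)) (t : ℝ) :
    FY (fun r => sl (vr c u r) t) fun _ => sl (tg u) t :=
  ⟨fun k => ⟨(sm_fst ((ay_sl hc t).sa k)).add (fam_sc ((ay_sl hu t).sa k)).sm, fun s y =>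
      ((fam_sc ((ay_sl hu t).sa k)).dr s y).const_add _⟩,
    ⟨(sm_fst (ay_sl hc t).sΦ).add (fam_sc (ay_sl hu t).sΦ).sm, fun s y =>
      ((fam_sc (ay_sl hu t).sΦ).dr s y).const_add _⟩, fun r => ay_sl (adm_vr hc hu r) t⟩

theorem vr_zero : vr c u 0 = c := Cfg.ext (funext₂ fun _ _ => by simp [vr]) (funext fun _ => by simp [vr])

theorem cl_addB {Y : Mf 4} {ι V W : Type} [Fintype ι]
    [NormedAddCommGroup V] [InnerProductSpace ℝ V] [FiniteDimensional ℝ V]
    [NormedAddCommGroup W] [InnerProductSpace ℝ W] [FiniteDimensional ℝ W] {F : Fr Y.I Y.M ι}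
    {A : Op Y.M ι V W} {B : Y.M → V →L[ℝ] W} (h : A.Cliff F) : (addB A B).Cliff F := h

theorem sT_mem {Y : Mf 3} [CompactSpace Y.M] {ι V W J : Type} [Fintype ι] [Fintype J]
    [NormedAddCommGroup V] [InnerProductSpace ℝ V] [FiniteDimensional ℝ V]
    [NormedAddCommGroup W] [InnerProductSpace ℝ W] [FiniteDimensional ℝ W] {F : Fr Y.I Y.M ι}
    {A : Op (Y.M × ℝ) (Option ι) V W} {g : J → Y.M × ℝ → V} {h : J → Y.M × ℝ → W} (H : SH F A g h)
    (u : Sec (IC Y.I) A.p) : sT F A g h u.1 ∈ Sec (IC Y.I) A.q :=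
  add_mem (LS H.good.choose_spec u).2 (RepT_mem (RepT_sum (F := cylP F.toPre) (F' := cylP F.toPre) _
    fun i _ => rep_k (j := 0) (H.cg i) (H.ch i) (H.qh i)) u)

theorem pm_ρ (he : e.OK) {x : e.Y.M × ℝ} {v : Eu ν} (h : e.cyl.pp x v = v) (a : Option κ) :
    e.cyl.pm x (e.m.ρ a x.1 v) = e.m.ρ a x.1 v := (Cyl58.p8 he.cyl x).pm_ρ h a

theorem σ_t (a : Option κ) (x : e.Y.M × ℝ) : (op0 c).σ a x = (op0 c).σ a (x.1, 0) := by
  have h : (fun a b => e.cyl.B.P a b x) = fun a b => e.cyl.B.P a b (x.1, 0) :=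
    funext₂ fun a b => by cases a <;> cases b <;> rfl
  have h1 : pE e.cyl x = pE e.cyl (x.1, 0) := by
    simp only [Map77.ps, Dr9.p2_inv x.1 x.2]; rfl
  have h2 : pC e.cyl x = pC e.cyl (x.1, 0) := by simp only [Map77.ps, Bg.p1, h]; rfl
  have h3 : σF e.cyl a x = σF e.cyl a (x.1, 0) := by simp only [σF, h]; rfl
  change pE e.cyl x ∘L σF e.cyl a x ∘L pC e.cyl x = _
  rw [h1, h2, h3]; rfl

theorem q_h0 (he : e.OK) (hc : e.cyl.Adm c) (i : Bool) (x : e.Y.M × ℝ) :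
    pE e.cyl x (h0 c i x) = h0 c i x := by
  cases i
  · exact Map77.maps_i1 x _ (Map77.maps_i2 x _ (Dr9.p2_inv x.1 x.2 ▸ he.pζ x.1))
  · exact (map_neg _ _).trans (congrArg _ (Map77.maps_i1 x _ (Map77.maps_i1 x _
      (pm_ρ he (hc.pΦ x) none))))

theorem sh0 (he : e.OK) (hc : e.cyl.Adm c) (ho : OpAt e.cyl c)
    (hn : Nc e.D.Z.toPre e.D.Z.P (full e.cyl c)) (ca : ∀ i, e.D.Z.Cb (c.a i)) (cΦ : e.D.Z.Cb c.Φ) :
    SH e.D.F (op0 c) (g0 c) (h0 c) := by
  have cζ : e.D.Z.Cb fun x => e.ζ x.1 := Cht98.Cb_fst _ (Cb_of_compact he.sζ)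
  have cζ' : ∀ s, e.D.Z.Cb fun x => e.ζ x.1 s := fun s => Cb_clm (Map77.pj ℝ s) cζ
  have cρ : e.D.Z.Cb fun x => e.m.ρ none x.1 := he.cyl.cρ none
  have cn : e.D.Z.Cb fun x => nm (sl c x.2) := by
    have := cb_sI (F := e.D.F.toPre) (g := fun x => ⟪c.Φ x, c.Φ x⟫_ℝ) (Cb_bil (innerSL ℝ) cΦ cΦ)
    simp only [real_inner_self_eq_norm_sq] at this
    exact this
  have ch : e.D.Z.Cb fun x => hol (sl c x.2) := cb_sI (F := e.D.F.toPre) (Cb_smul (Cb_const 4)
    (Cb_sum _ fun k _ => Cb_smul (cζ' (none, some k)) (ca (some k))))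
  have sb := (contDiff_infty_iff_deriv.1 he.sb).2
  have sf := (contDiff_infty_iff_deriv.1 he.sf).2
  refine ⟨he.cyl.tame, ?_, ?_, σ_t, fun i => ?_, fun i => ?_, q_h0 he hc⟩
  · have hB : e.D.Z.Cb fun x => (-e.b (nm (sl c x.2)) • (i1 _ _ ∘L i1 _ _ ∘L e.m.ρ none x.1 ∘L sp) :
        Cf κ ν →L[ℝ] Ef κ ν) := Cb_smul (Cb_neg (Cb_nem he.sb cn)) (Cb_comp (Cb_const _)
          (Cb_comp (Cb_const _) (Cb_comp cρ (Cb_const _))))
    obtain ⟨C, hC⟩ : ∃ C, e.D.Z.Tame C := he.cyl.tame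
    exact (Map77.good_of hC (A := op0 c) hn.p hn.q hn.σ (Cb_add hn.B (Cb_comp hn.q hB))
      hn.alg.addB).imp fun _ h => h.2
  · exact cl_addB (Y := e.Z) ho.cl
  · cases i
    · exact Cb_smul (Cb_smul (Cb_const 4) (Cb_nem (contDiff_infty_iff_deriv.1 sf).2 ch))
        (Cb_clm _ ((Map77.Cls.toLp (K := Map77.cb (fun _ : Unit => e.D.Z.toPre) univ)
          (f := fun (a : Option κ) _ x => a.elim 0 fun k => e.ζ x.1 (none, some k)) fun a _ _ => by
            cases a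
            exacts [Cb_const _, cζ' _]) () trivial))
    · exact Cb_smul (Cb_smul (Cb_const 2) (Cb_nem sb cn)) (Cb_clm _ cΦ)
  · cases i
    · exact Cb_clm _ (Cb_clm _ cζ)
    · exact Cb_neg (Cb_clm _ (Cb_clm _ (Cb_app cρ cΦ)))

theorem lin_eq (he : e.OK) (ht : e.cyl.Adm (tg u)) (x : e.Y.M × ℝ) :
    lin0 c u x = (full e.cyl c).app e.D.Z u x +
      i1 _ _ (i1 _ _ (-((deriv e.b (nm (sl c x.2)) * ∫ y, 2 * ⟪c.Φ (y, x.2), sp (u (y, x.2))⟫_ℝ
        ∂e.D.F.μ) • e.m.ρ none x.1 (c.Φ x) + e.b (nm (sl c x.2)) • e.m.ρ none x.1 (sp (u x)))) +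
        i2 _ _ ((deriv (deriv e.f) (hol (sl c x.2)) * hol (sl (tg u) x.2)) • e.ζ x.1)) := by
  have g1 : ∫ y, ⟪g0 c true (y, x.2), u (y, x.2)⟫_ℝ ∂e.D.F.μ = deriv e.b (nm (sl c x.2)) *
      ∫ y, 2 * ⟪c.Φ (y, x.2), sp (u (y, x.2))⟫_ℝ ∂e.D.F.μ := by
    rw [← integral_const_mul]
    refine congrArg _ (funext fun y => ?_)
    simp only [g0, real_inner_smul_left, inner2, f2_i2, s2_i2, inner_zero_left, zero_add]
    ring
  have g2 : ∫ y, ⟪g0 c false (y, x.2), u (y, x.2)⟫_ℝ ∂e.D.F.μ =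
      deriv (deriv e.f) (hol (sl c x.2)) * hol (sl (tg u) x.2) := by
    refine .trans (congrArg _ (funext fun y => ?_)) (integral_const_mul _ _)
    simp only [g0, real_inner_smul_left, inner2, f2_i1, s2_i1, inner_zero_left, add_zero,
      Map77.inner_fm, Fintype.sum_option, Option.elim, zero_add, sl, tg, co_apply, conj_trivial,
      RCLike.inner_apply, mul_comm (e.ζ y _)]
    ring
  have q : pE e.cyl x ((-e.b (nm (sl c x.2)) • (i1 _ _ ∘L i1 _ _ ∘L e.m.ρ none x.1 ∘L sp) :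
      Cf κ ν →L[ℝ] Ef κ ν) (u x)) =
      i1 _ _ (i1 _ _ (-(e.b (nm (sl c x.2)) • e.m.ρ none x.1 (sp (u x))))) := by
    have := pm_ρ he (v := sp (u x)) (ht.pΦ x) none
    exact ext2 (ext2 (by simpa using congrArg _ this) (by simp)) (by simp)
  refine (congrArg₂ (· + ·) ((Map77.op_addB _ _ u x).trans (congrArg (_ + ·) q))
    (Fintype.sum_bool _)).trans ?_
  rw [g1, g2, add_assoc]
  simp only [h0, map_add, map_neg, map_smul, smul_neg, neg_add]
  exact congrArg₂ (· + ·) rfl (by abel)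

theorem linStmt : LinStmt κ lam ν := fun e he c hc ho hn ca cΦ => by
  refine ⟨sh0 he hc ho hn ca cΦ, fun u hu => ?_⟩
  have ht := adm_tg hu.1 hu.2.2
  have app : ∀ (r : ℝ) x, r • (full e.cyl c).app e.D.Z u x = _ := fun r x =>
    (show _ = (full e.cyl c).app e.D.Z (r • u) x by
      simp only [Op.app, op, e.D.Z.D_smul hu.1, Finset.smul_sum, Pi.smul_apply, map_smul, smul_add]).trans
      (ho.app (r • u) (fun x => Wz78.SA.smul contMDiffAt_const (hu.1 x))
        (fun x => by rw [Pi.smul_apply, map_smul, hu.2.2 x]) x)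
  have v1 : ∀ r, vr c (r • u) 1 = vr c u r := fun r =>
    Cfg.ext (funext₂ fun _ _ => by simp [vr]) (funext fun _ => by simp [vr])
  have z : ∀ {V : Type} [NormedAddCommGroup V] [NormedSpace ℝ V] (a b : V),
      HasDerivAt (fun r : ℝ => r • a + r • r • b) a 0 := fun a b => by
    simpa using ((hasDerivAt_id (0 : ℝ)).smul_const a).fun_add
      ((hasDerivAt_id (0 : ℝ)).fun_smul ((hasDerivAt_id (0 : ℝ)).smul_const b))
  refine ⟨sT_mem (sh0 he hc ho hn ca cΦ) ⟨u, hu⟩, fun x => ⟨?_, ?_⟩, fun x => ?_⟩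
  · have h := fun r => congrArg (fun z => f2 _ _ (f2 _ _ z)) (app r x)
    simp only [v1, map_add, f2_i1, f2_i2, add_zero, map_smul, smul_eq_mul, mul_smul, Pi.smul_apply,
      fun i (r : ℝ) (v : Eu ν) => smul_comm (co i (u x)) r v, ← Finset.smul_sum, smul_zero,
      eq_sub_iff_add_eq] at h
    have d := ((he.sb.differentiable (by simp) _).hasDerivAt.comp_of_eq 0
      ((fy_vr hc ht x.2).nm.int e.D.F.toPre 0) (congrArg (fun c => nm (sl c x.2)) vr_zero.symm)).fun_smul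
      ((e.m.ρ none x.1).hasFDerivAt.comp_hasDerivAt 0 ((fy_vr hc ht x.2).Φ.dr 0 x.1))
    rw [lin_eq he ht]
    simp only [map_add, f2_i1, f2_i2, add_zero, vr_zero, comp_apply, ED, ← h] at d ⊢
    exact (((z _ _).add_const _).fun_sub d).congr_deriv ((sub_eq_add_neg _ _).trans
      (congrArg (_ + -·) (add_comm _ _)))
  · have h := fun r => congrArg (fun z => s2 _ _ (f2 _ _ z)) (app r x)
    have q : ∀ (r : ℝ) v, e.cyl.qd x (r • v) (r • v) = r • r • e.cyl.qd x v v := fun r v =>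
      Map77.fm_ext fun s => by simp [Bg.qd, real_inner_smul_left, real_inner_smul_right]; ring
    simp only [v1, map_add, f2_i1, f2_i2, s2_i1, s2_i2, add_zero, zero_add, map_smul, Pi.smul_apply,
      q, fun (r : ℝ) (v : F2 κ) => smul_comm e.cyl.w r v] at h
    replace h := fun r => sub_eq_iff_eq_add.1 (sub_eq_of_eq_add (h r)).symm
    simp only [sub_eq_add_neg, ← smul_neg] at h
    have d := (((contDiff_infty_iff_deriv.1 he.sf).2.differentiable (by simp) _).hasDerivAt.comp_of_eq 0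
      (((fy_vr hc ht x.2).hol he).int e.D.F.toPre 0)
      (congrArg (fun c => hol (sl c x.2)) vr_zero.symm)).smul_const (e.ζ x.1)
    rw [lin_eq he ht]
    simp only [map_add, f2_i1, s2_i1, s2_i2, zero_add, EC, h]
    exact ((z _ _).add_const _).fun_add d
  · rw [lin_eq he ht, map_add, s2_i1, add_zero]
    exact (congrArg _ (ho.app u hu.1 hu.2.2 x)).trans (by rw [map_add, s2_i1, s2_i2, zero_add])

end Crest.Agent.X212.Dz34
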