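import Crest.Agent.X212.Dz34.Core
import Crest.Agent.X212.Sw21.Cc
import Crest.Agent.X212.Mod61.Hs
import Crest.Agent.X212.Wrd81.Onto

/-!
# Row 212, SW-DENS-Z (helper34): transversality on cylinders
-/

set_option autoImplicit false
set_option linter.unusedSectionVars false
noncomputable section
open scoped Manifold ContDiff Topology InnerProductSpace
open MeasureTheory Set Function Filter

namespace Crest.Agent.X212.Dz34
open An An.Pre Sob92 Ell97 Cyf70 Sw Sw.En3 Map77.S Sw21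
open Map77 (P2 i1 i2 f2 s2 Nc ext2 f2_i1 s2_i1 f2_i2 s2_i2 fH sH iH1 iH2 rep_fH rep_sH rep_iH1 rep_iH2)
open M (Mf)

variable {κ lam ν : Type} [Fintype κ] [Fintype lam] [Fintype ν] [DecidableEq ν]
  {d : Dt κ lam ν} {N : Type} [Fintype N] {ty : N → d.𝓔} {i : N}
  {T : Type} [NormedAddCommGroup T] [NormedSpace ℝ T] [FiniteDimensional ℝ T] {nr : ℕ}
  {β : BCs fun j => d.e (ty j)}

theorem cs_sum {V : Type} [AddCommMonoid V] (f : ∀ j, Sw.Nk (d.e (ty j)) (d.cs ty i).bg → V) :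
    ∑ j, ((d.cs ty i).nk j).elim 0 (f j) = f i (d.e (ty i)).nk := by
  rw [Finset.sum_eq_single i (fun j _ h => by rw [cs_ne h]; rfl) (by simp), cs_self]; rfl

theorem nk_χ (e : En3 κ lam ν) (x) : e.nk.χ x = 1 := Nd18.ct_none

theorem cc_tm (t : T) (w : d.W) (c : (d.e (ty i)).ZC) (x) : ((d.cf ty i T).P t).tm w c x =
    (d.yt w (ty i)).elim 0 fun T => T.b (lb c x.2) • T.fo x.1 :=
  ((zero_add _).trans (cs_sum _)).trans (congrArg _ (funext fun _ => congrArg _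
    ((congrArg (· • _) (nk_χ _ x)).trans (one_smul _ _))))

theorem cc_pt (t : T) (q : d.W →₀ ℝ) :
    ((d.cf ty i T).P t).pt q = pt (fun w => d.yt w (ty i)) q := by
  unfold Pc.pt pt
  congr 1
  · funext c x
    exact (cs_sum _).trans (congrArg (· • _) ((congrArg (· * _) (nk_χ _ x)).trans (one_mul _)))
  · funext c x
    exact congrArg₂ (· + ·) ((cs_sum _).trans (congrArg _ ((congrArg (· • _) (nk_χ _ x)).trans
      (one_smul _ _)))) (Finsupp.sum_congr fun w _ => congrArg _ (cc_tm t w c x))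
  · funext c j
    exact j.elim0

/-- the derivative of the terms -/
def dτ {e : En3 κ lam ν} {W : Type} (T : W → Option e.YT) (q : W →₀ ℝ) (c : e.ZC) (G : ℝ → ℝ)
    (x : e.Y.M × ℝ) : F2 κ :=
  q.sum fun w r => r • (T w).elim 0 fun T => (deriv T.b (lb c x.2) * G x.2) • T.fo x.1

theorem der_tau {e : En3 κ lam ν} {W : Type} {T : W → Option e.YT} {q : W →₀ ℝ} {c : e.ZC} {u G}
    (hG : ∀ t, HasDerivAt (fun r => lb (vr c u r) t) (G t) 0) (x) :
    HasDerivAt (fun r => tau T q (vr c u r) x) (dτ T q c G x) 0 := HasDerivAt.fun_sum fun w _ => by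
  refine HasDerivAt.fun_const_smul _ ?_
  cases T w with
  | none => exact hasDerivAt_const _ (0 : F2 κ)
  | some T => exact ((T.sb.differentiable (by simp) _).hasDerivAt.comp_of_eq 0 (hG x.2)
      (congrArg (lb · x.2) vr_zero.symm)).smul_const _

theorem db_ne {e : En3 κ lam ν} (he : e.OK) (T : e.YT) {r : ℝ} (h : deriv T.b r ≠ 0) : r ∈ e.S :=
  closure_minimal T.S he.S.isClosed (support_deriv_subset h)

theorem val_jY {X : Mf 4} {nc : ℕ} {s : Pz X 0 fun i => d.e (ty i)} {σ : Cel s nc nr T} {S k}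
    (hS : Sob92.Sup s.bg.F.toPre S) (hk : 4 ≤ k) (f : σ.Y k) (x) : s.bg.F.val k _ (jY σ k f) x =
      i1 _ _ (s.bg.F.val k _ f.1 x) + i2 _ _ (s.bg.F.val k _ f.2.1 x) :=
  (congrFun (val_add (iH1 _ _ _ _ f.1) (iH2 _ _ _ _ f.2.1)) x).trans (congrArg₂ (· + ·)
    (val_mulH hS hk (Cb_const _) Map77.maps_i1 f.1 x) (val_mulH hS hk (Cb_const _) Map77.maps_i2 f.2.1 x))

variable (h : Md (d.cc ty i T nr β)) {k : ℕ} (hk : 7 ≤ k) (q : d.W →₀ ℝ) (y : (d.cc ty i T nr β).Pnt)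
include h hk

theorem tc_val (u : Sec (IC (d.e (ty i)).Y.I) (pC (d.e (ty i)).cyl)) {w G} (hw : Lin y.1.2 u.1 w)
    (hg : ∀ x, s2 _ _ (w x) = lG (d.e (ty i)).cyl y.1.2 u.1 x)
    (hG : ∀ t, HasDerivAt (fun r => lb (vr y.1.2 u.1 r) t) (G t) 0) (x) {z} (hz : z =
      (d.e (ty i)).D.Z.val k _ (Tc _ k q ((d.cc ty i T nr β).pt k y) ((d.e (ty i)).D.Z.toH _ _ u)) x) :
    z = w x - i1 _ _ (i2 _ _ (dτ (fun w => d.yt w (ty i)) q y.1.2 G x)) := by
  have hS := Sup.of_tame h.ok.site.bg.tame.choose_spec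
  obtain ⟨a, b, c⟩ := (h.pw k hk q y u.1 (Mod61.Hs_sec hS u)).2.2 x z (hz.trans (congrArg
    (fun a => (d.cs ty i).bg.F.val k _ (Tc _ k q ((d.cc ty i T nr β).pt k y) a) x)
    (Mod61.ofV_eq hS (by omega) (val_toH hS (by omega) u)).symm))
  simp only [EE, show ((d.cc ty i T nr β).P y.1.1).pt q = _ from cc_pt y.1.1 q] at a b
  refine ext2 (ext2 ?_ ?_) ?_
  · simpa only [map_sub, f2_i1, f2_i2, sub_zero] using a.unique (hw x).1
  · simp only [map_sub, f2_i1, s2_i2]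
    exact b.unique (((hw x).2.fun_sub (der_tau hG x)).congr_of_eventuallyEq (.of_forall fun r =>
      (sub_add_eq_sub_sub _ _ _).trans (congrArg (· - _) (by rw [neg_smul, sub_neg_eq_add]; rfl))))
  · rw [map_sub, s2_i1, sub_zero, hg]
    exact c

omit h hk in
theorem fH_Tc (v u) : fH _ _ _ _ (Tc (d.cc ty i T nr β) k q v u) =
    jY _ k (fderiv ℝ ((d.cc ty i T nr β).F k q) v (eC _ k v.2.2 u)) := by
  simp [Map77.S.Tc, jE, TT]

variable (hI : InvStmt) (hM : MsStmt κ lam ν) (hL : LinStmt κ lam ν) (he : (d.e (ty i)).OK)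
  (hN : Neg y.1.2) (hT : ∀ T' : (d.e (ty i)).YT, ∃ w, d.yt w (ty i) = some T')
  (l : (d.cc ty i T nr β).Y k →L[ℝ] ℝ) (lm : ∀ m, l (0, 0, 0, m) = 0)
  (lτ : ∀ w, l ((d.cc ty i T nr β).rp k ((d.cc ty i T nr β).eτ w) ((d.cc ty i T nr β).pt k y)) = 0)
  (lΛ : ∀ u, l (fderiv ℝ ((d.cc ty i T nr β).F k q) ((d.cc ty i T nr β).pt k y) u) = 0)

omit h hk in
/-- the induced functional -/
def lE : (d.e (ty i)).D.Z.H k (pE (d.e (ty i)).cyl) →L[ℝ] ℝ :=
  l ∘L ((fH _ _ _ _).prod ((sH _ _ _ _).prod 0)) ∘L fH _ _ _ _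

omit h hk in
include lm in
theorem lE_eq (f : (d.cc ty i T nr β).Y k) (z : HE (d.cs ty i) k) (e : fH _ _ _ _ z = jY _ k f) :
    lE l z = l f := by
  have : f = (fH _ _ _ _ (jY _ k f), sH _ _ _ _ (jY _ k f), 0) + (0, 0, 0, f.2.2.2) :=
    Prod.ext (by simp [jY]) (Prod.ext (by simp [jY]) (Prod.ext (Subsingleton.elim _ _) (by simp)))
  rw [this, map_add, lm, add_zero, ← e]; rfl

include hI hM hN hT lm lτ in
theorem kill (G h1 h2 f h3 h4) (hG : ∀ s, G s ≠ 0 → lb y.1.2 s ∈ (d.e (ty i)).S) :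
    lE l ((d.e (ty i)).D.Z.toH k _ (gf he (G := G) h1 h2 (f := f) h3 h4)) = 0 := by
  have hS := Sup.of_tame h.ok.site.bg.tame.choose_spec
  have k4 : 4 ≤ k := by omega
  obtain ⟨b, b1, b2, b3⟩ := hI _ G _ (hM _ he _ y.2.2.1).1 he.S.isClosed hN h1 h2 hG
  obtain ⟨w, hw⟩ := hT ⟨b, f, b1, b2, h3, h4, (h.OK.gd i true (cs_inf.2 rfl)).inv⟩
  have r := ((h.rep k hk).2.1 w).2 y
  refine (lE_eq l lm (-_) _ (val_injective hS k4 (funext fun x => ?_))).trans
    ((map_neg _ _).trans (neg_eq_zero.2 (lτ w)))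
  have e1 := congrFun (congrArg (·.1) r) x
  have e2 := (congrFun (congrArg (·.2.1) r) x).trans (congrArg (-·) (cc_tm _ w _ x))
  simp only [hw, Option.elim, b3] at e1 e2
  refine ((val_mulH hS k4 (Cb_const _) Map77.maps_f2 _ x).trans
    (congrArg _ (congrFun (val_toH hS k4 _) x))).trans (.trans ?_ (val_jY hS k4 _ x).symm)
  simp only [Prod.fst_neg, Prod.snd_neg, val_neg, Pi.neg_apply, e1, e2]
  simp [gf, Cel.eτ]

include he hL in
theorem lin_at : SH (d.e (ty i)).D.F (op0 y.1.2) (g0 y.1.2) (h0 y.1.2) ∧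
    ∀ u ∈ Sec (IC (d.e (ty i)).Y.I) (pC (d.e (ty i)).cyl),
      lin0 y.1.2 u ∈ Sec (IC (d.e (ty i)).Y.I) (pE (d.e (ty i)).cyl) ∧ Lin y.1.2 u (lin0 y.1.2 u) ∧
        ∀ x, s2 _ _ (lin0 y.1.2 u x) = lG (d.e (ty i)).cyl y.1.2 u x :=
  have c := (h.pb.eqv _ _ _ _ _ h.ok.site β h.cr).2.2 _ y.2.2
  hL _ he _ y.2.2.1 (h.op y).1 (h.op y).2 c.1 c.2

include hI hM hL he hN hT lm lτ lΛ in
theorem kill_lin (u) (hu : u ∈ Sec (IC (d.e (ty i)).Y.I) (pC (d.e (ty i)).cyl))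
    (w : Sec (IC (d.e (ty i)).Y.I) (pE (d.e (ty i)).cyl)) (hw : w.1 = lin0 y.1.2 u) :
    lE l ((d.e (ty i)).D.Z.toH k _ w) = 0 := by
  have hS := Sup.of_tame he.cyl.tame.choose_spec
  obtain ⟨G, g1, g2, g3⟩ := (hM _ he _ y.2.2.1).2 u hu
  have sl := (hM _ he _ y.2.2.1).1
  obtain ⟨-, a, b⟩ := (lin_at h hk y hL he).2 u hu
  obtain ⟨W, w1, w2⟩ : (fun x => i1 _ ℝ (i2 (Eu ν) _ (dτ (fun w => d.yt w (ty i)) q y.1.2 G x))) ∈
      (LinearMap.ker ((lE l).toLinearMap ∘ₗ (d.e (ty i)).D.Z.toH k _)).map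
        (Sec (IC (d.e (ty i)).Y.I) (pE (d.e (ty i)).cyl)).subtype := by
    simp only [dτ, Finsupp.sum, map_sum, map_smul]
    rw [← Finset.sum_fn]
    refine sum_mem fun w _ => Submodule.smul_mem _ (q w) ?_
    cases d.yt w (ty i) with
    | none => exact zero_mem _
    | some T => exact ⟨_, kill h hk y hI hM he hN hT l lm lτ (fun s => deriv T.b (lb y.1.2 s) * G s)
        (((contDiff_infty_iff_deriv.1 T.sb).2.comp sl).mul g1) g2.mul_left T.fo T.sf T.pf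
        fun s hs => db_ne he T (left_ne_zero_of_mul hs), rfl⟩
  have e : (d.e (ty i)).D.Z.toH k _ (w - W) =
      Tc _ k q ((d.cc ty i T nr β).pt k y) ((d.e (ty i)).D.Z.toH _ _ ⟨u, hu⟩) :=
    val_injective hS (by omega) ((val_toH hS (by omega) _).trans (funext fun x =>
      ((tc_val h hk q y ⟨u, hu⟩ a b g3 x rfl).trans (by rw [← hw, ← congrFun w2 x]; rfl)).symm))
  have := (congrArg (lE l) e).trans ((lE_eq l lm _ _ (fH_Tc q _ _)).trans (lΛ _))
  rwa [map_sub, map_sub, show lE l _ = 0 from w1, sub_zero] at this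

include hM hL he in
theorem fin_cc [Subsingleton T] {n} (hF : (d.cc ty i T nr β).Ind n) :
    FiniteDimensional ℝ (Ann y.1.2) := by
  have hS := Sup.of_tame he.cyl.tame.choose_spec
  obtain ⟨r, -, hF, -⟩ := hF k hk 0 y
  refine fin_ann hF ((d.cs ty i).bg.F.incl k 0 _ ∘L iH1 _ _ _ _ ∘L jY _ k ∘L .fst ℝ _ _).toLinearMap _
    (fun z hz v => ?_) fun z hz h0 => inner_self_eq_zero.1 (H_ind (P := fun w => ⟪z, w⟫_ℝ = 0) z
      (isClosed_eq (by fun_prop) continuous_const) fun w => ?_)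
  · have key : ∀ u, ⟪z, (d.cs ty i).bg.F.incl k 0 _ (iH1 _ _ _ _ (fH _ _ _ _
        (Tc (d.cc ty i T nr β) k 0 ((d.cc ty i T nr β).pt k y) u)))⟫_ℝ = 0 := fun u => by
      induction u using H_ind with
      | hP => exact isClosed_eq (by fun_prop) continuous_const
      | h u => ?_
      obtain ⟨G, -, -, g3⟩ := (hM _ he _ y.2.2.1).2 u.1 u.2
      obtain ⟨m, a, b⟩ := (lin_at h hk y hL he).2 u.1 u.2
      have e : Tc _ k 0 ((d.cc ty i T nr β).pt k y) ((d.e (ty i)).D.Z.toH _ _ u) =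
          (d.e (ty i)).D.Z.toH k _ ⟨_, m⟩ :=
        val_injective hS (by omega) ((funext fun x => (tc_val h hk 0 y u a b g3 x rfl).trans
          (sub_zero _)).trans (val_toH hS (by omega) ⟨_, m⟩).symm)
      refine (congrArg (⟪z, ·⟫_ℝ) ((congrArg _ ((congrArg _ ((congrArg _ e).trans
        (RepT_toH rep_fH _))).trans (RepT_toH rep_iH1 _))).trans (incl_toH k.zero_le _))).trans ?_
      exact mem_ann.1 hz u.1 u.2 _ a
    have e : _ = v := ((h.je k y.1.1 trivial).2 v).trans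
      (Prod.ext rfl (Prod.ext rfl (Subsingleton.elim _ _)))
    have := key (jC _ k y.1.1 v)
    rw [fH_Tc] at this
    exact (congrArg (fun v => ⟪z, (d.cs ty i).bg.F.incl k 0 _ (iH1 _ _ _ _ (jY _ k
      (fderiv ℝ ((d.cc ty i T nr β).F k 0) ((d.cc ty i T nr β).pt k y) v)))⟫_ℝ) e).symm.trans this
  · rw [← incl_toH k.zero_le w, ← Map77.iH_add ((d.cs ty i).bg.F.toH k _ w), map_add, inner_add_right,
      ← Map77.iH_add (fH _ _ _ _ _), RepT_toH rep_sH w, RepT_toH rep_iH2, incl_toH k.zero_le]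
    refine (congrArg₂ (· + ·) (h0 ((_, _, 0), 0)) (mem_ann.1 hz 0 (zero_mem _) _ fun x => ?_)).trans
      (add_zero _)
    have : ∀ r, vr y.1.2 0 r = y.1.2 := fun r =>
      Cfg.ext (funext₂ fun _ _ => by simp [vr]) (funext fun _ => by simp [vr])
    simp only [this]
    exact ⟨hasDerivAt_const _ _, hasDerivAt_const _ _⟩

omit h hk
variable (d) [Fintype d.𝓔] (Sl : Type) [Fintype Sl]

theorem densZ_of (hG : NegStmt κ lam ν) (hD : DichStmt κ lam ν) (hI : InvStmt) (hM : MsStmt κ lam ν)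
    (hS : StatStmt κ lam ν) (hB : SlabStmt κ lam ν) (hU : MuStmt d (Prod.fst : d.𝓔 × Sl → d.𝓔))
    (hMd : ∀ (X : Mf 4) nr (T : Type) [NormedAddCommGroup T] [NormedSpace ℝ T] [FiniteDimensional ℝ T],
      MdStmt d (Prod.fst : d.𝓔 × Sl → d.𝓔) X 0 nr T) : DensZStmt d Sl := fun Γ C => by
  choose η η0 hη using fun ε => hG _ _ (Γ.ok ε) C
  obtain ⟨η₀, p0, hp⟩ : ∃ η₀ > 0, ∀ ε, η₀ ≤ η ε := by
    obtain ⟨a, h1, h2⟩ := ((eventually_all.2 fun ε => Iic_mem_nhds (η0 ε)).filter_mono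
      nhdsWithin_le_nhds).and (self_mem_nhdsWithin (a := (0 : ℝ)) (s := Ioi 0)) |>.exists
    exact ⟨a, h2, h1⟩
  refine ⟨η₀, p0, fun i T _ _ _ _ nr β hO hT hr n hF k hk q y hq hC hs => .inr ?_⟩
  have h := hMd _ _ _ _ _ hO
  have hg := Γ.ok i.1
  have gd := fun b => hO.gd i b (cs_inf.2 rfl)
  have hE : (d.e i.1).cyl.EqOn (pt (fun w => d.yt w i.1) q) y.1.2 univ :=
    cc_pt (d := d) (ty := Prod.fst) (i := i) y.1.1 q ▸ hs.1.2.eq
  have hN : Neg y.1.2 := hη _ _ (gd true).inv y.2.2.1 (fun x hx => ⟨(hE x trivial).1, by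
    obtain ⟨s, s1, s2⟩ := hq y.1.1 trivial
    rw [(hE x trivial).2]
    simpa [pt] using (Sep15.S.tau_le (k := 6) ⟨s, s1, fun w hw => ⟨(s2 w hw).1, (s2 w hw).2.2.2.2 i⟩⟩
      y.1.2 x).trans (hp _)⟩) fun x _ => hC x
  refine Wrd81.exists_onto (hF k hk q y).choose_spec.2.1 (fun w => (d.cc Prod.fst i T nr β).rp k
    ((d.cc Prod.fst i T nr β).eτ w) ((d.cc Prod.fst i T nr β).pt k y))
    fun N hc hA hv => mem_of_dual hc fun l hl => ?_
  have lΛ := fun u => hl _ (hA u)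
  have lτ := fun w => hl _ (hv w)
  have lm : ∀ m, l (0, 0, 0, m) = 0 := by
    obtain rfl | ⟨rfl, hr⟩ := hr
    · exact fun m => (congrArg l (by rw [Subsingleton.elim m 0]; rfl)).trans (map_zero l)
    · refine hU i T β h ?_ k hk q y hs l lΛ
      have a : ∀ b, ∃ o, L (β i b) = L ((Γ.g i.1).pt o) := fun b =>
        (hg.all _ (gd b).crit).imp fun o => (gd b).inv _ _ (hg.crit o).1
      obtain ⟨o, e⟩ := a true
      obtain ⟨o', e'⟩ := a false
      rw [e, e'] at hr ⊢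
      exact hg.sep _ _ hr
  obtain ⟨H, lin⟩ := lin_at h hk y linStmt hg.ok
  have z := core hD hS hB hg (gd false) (gd true) y.2.2.1 hE (y.2.2.2 i false _ cs_self (nk_inf _ _))
    (y.2.2.2 i true _ cs_self (nk_inf _ _)) hN (hM _ hg.ok _ y.2.2.1).1.continuous (h.op y).1 H
    hs.1.1.2 (fun u hu => ⟨(lin u hu).1, (lin u hu).2.1⟩) (lE l)
    (kill_lin h hk q y hI hM linStmt hg.ok hN hT l lm lτ lΛ) (kill h hk y hI hM hg.ok hN hT l lm lτ)
    (fun w hw => (lE_eq l lm 0 _ ((RepT_toH' rep_fH w 0 (funext hw)).trans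
      ((map_zero _).trans (map_zero _).symm))).trans (map_zero l))
    fun _ => fin_cc h hk y hM linStmt hg.ok hF
  exact ContinuousLinearMap.ext fun f => (lE_eq l lm f (iH1 _ _ _ _ (jY _ k f)) (Map77.fH_iH1 _)).symm.trans
    (DFunLike.congr_fun z _)

end Crest.Agent.X212.Dz34
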