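import Crest.Agent.X212.Dz34.Main
import Crest.Agent.X212.Mcg32.DzI
import Crest.Agent.X212.Mcg32.DzN
import Crest.Agent.X212.Mcg32.DzM
import Crest.Agent.X212.Wd45.Stat
import Crest.Agent.X212.Dns43.Slab
import Crest.Agent.X212.Map44.Rad
import Crest.Agent.X212.Map77.S4

/-!
# Row 212, SW-DENS-Z (helper34): the leaves put together
-/

set_option autoImplicit false
noncomputable section

namespace Crest.Agent.X212.Dz34
open Sw

variable {κ lam ν : Type} [Fintype κ] [Fintype lam] [Fintype ν] [DecidableEq ν]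
  (d : Dt κ lam ν) [Fintype d.𝓔] (Sl : Type) [Fintype Sl]

theorem densZ_mu (hU : MuStmt d (Prod.fst : d.𝓔 × Sl → d.𝓔)) : DensZStmt d Sl :=
  densZ_of d Sl Mcg32.Dz.negStmt Mcg32.Dz.dichStmt Mcg32.Dz.invStmt Mcg32.Dz.msStmt Wd45.stat
    (Dns43.slabStmt _ _ _) hU fun _ _ _ _ _ _ => Map77.S.md _ _ _ _ _ _ (Map44.mapStmt _ _ _ _ _ _)

/-- **SW-DENS-Z** -/
theorem densZ : DensZStmt d Sl := densZ_mu d Sl Mcg32.Dz.muStmt

end Crest.Agent.X212.Dz34
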